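import Mathlib.Tactic
import Mathlib.Combinatorics.Enumerative.DoubleCounting

/-! Greedy windows for increasing tuples, and small counting lemmas. -/

namespace Vale.Agent.N037T

open Finset

variable {n : ℕ}

theorem window (U : Finset (Fin n)) (g θ : ℕ) : ∃ θ', θ ≤ θ' ∧
    #{c ∈ U | θ ≤ c.val ∧ c.val < θ'} ≤ g ∧ (#{c ∈ U | θ ≤ c.val ∧ c.val < θ'} = g ∨ n ≤ θ') := by
  let f : ℕ → ℕ := fun x => #{c ∈ U | θ ≤ c.val ∧ c.val < θ + x}
  have h0 : f 0 = 0 := by
    simp only [f, card_eq_zero, filter_eq_empty_iff]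
    intro c _; omega
  have h1 : ∀ x, f (x + 1) ≤ f x + 1 := by
    intro x
    have : #{c ∈ U | c.val = θ + x} ≤ 1 := card_le_one.2 fun c hc d hd =>
      Fin.ext ((mem_filter.1 hc).2.trans (mem_filter.1 hd).2.symm)
    refine le_trans (card_le_card (t := {c ∈ U | θ ≤ c.val ∧ c.val < θ + x} ∪
      {c ∈ U | c.val = θ + x}) fun c hc => ?_) ((card_union_le _ _).trans (add_le_add le_rfl this))
    simp only [mem_union, mem_filter] at hc ⊢
    by_cases h : c.val = θ + x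
    · exact Or.inr ⟨hc.1, h⟩
    · exact Or.inl ⟨hc.1, hc.2.1, by omega⟩
  have h2 : ∀ m, g ≤ f m → ∃ x, f x = g := by
    intro m
    induction m with
    | zero => exact fun h => ⟨0, by omega⟩
    | succ m ih =>
      intro h
      by_cases h' : g ≤ f m
      · exact ih h'
      · exact ⟨m + 1, by have := h1 m; omega⟩
  by_cases h : g ≤ f n
  · obtain ⟨x, hx⟩ := h2 n h
    exact ⟨θ + x, by omega, hx.le, Or.inl hx⟩
  · exact ⟨θ + n, by omega, (not_le.1 h).le, Or.inr (by omega)⟩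

theorem greedy {k : ℕ} (U : Fin k → Finset (Fin n)) (g : ℕ)
    (h : #{f : Fin k → Fin n | StrictMono f ∧ ∀ j, f j ∈ U j} < g ^ k) :
    ∃ θ : ℕ → ℕ, θ 0 = 0 ∧ Monotone θ ∧ (∃ j : Fin k, n ≤ θ (j + 1)) ∧
      ∀ j : Fin k, #{c ∈ U j | θ j ≤ c.val ∧ c.val < θ (j + 1)} ≤ g := by
  choose nx h1 h2 h3 using fun (V : Finset (Fin n)) (θ : ℕ) => window V g θ
  let V : ℕ → Finset (Fin n) := fun j => if h : j < k then U ⟨j, h⟩ else ∅
  have hV : ∀ j : Fin k, V j = U j := fun j => dif_pos j.2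
  obtain ⟨θ, hθ0, hθ⟩ : ∃ θ : ℕ → ℕ, θ 0 = 0 ∧ ∀ j, θ (j + 1) = nx (V j) (θ j) :=
    ⟨fun j => Nat.rec 0 (fun i x => nx (V i) x) j, rfl, fun j => rfl⟩
  have hm : Monotone θ := monotone_nat_of_le_succ fun j => by rw [hθ]; exact h1 _ _
  refine ⟨θ, hθ0, hm, ?_, fun j => by rw [hθ, hV]; exact h2 _ _⟩
  by_contra hc
  push Not at hc
  have h4 : ∀ j : Fin k, #{c ∈ U j | θ j.val ≤ c.val ∧ c.val < θ (j.val + 1)} = g := by
    intro j
    have h5 := (h3 (V j) (θ j)).resolve_right (not_le.2 (hθ j ▸ hc j))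
    rw [← hV j, hθ]
    exact h5
  refine absurd h (not_lt.2 ?_)
  calc g ^ k = #(Fintype.piFinset fun j : Fin k =>
        {c ∈ U j | θ j.val ≤ c.val ∧ c.val < θ (j.val + 1)}) := by
        rw [Fintype.card_piFinset]; simp [h4]
    _ ≤ _ := card_le_card fun f hf => by
      rw [Fintype.mem_piFinset] at hf
      refine mem_filter.2 ⟨mem_univ _, fun i j hij => ?_, fun j => (mem_filter.1 (hf j)).1⟩
      have e1 := (mem_filter.1 (hf i)).2.2
      have e2 := (mem_filter.1 (hf j)).2.1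
      have e3 : θ (i + 1) ≤ θ j := hm (show i.val + 1 ≤ j.val from hij)
      exact Fin.lt_def.2 (by omega)

theorem pass {k : ℕ} (θ : ℕ → ℕ) (h0 : θ 0 = 0) (f : Fin k → Fin n) (hf : Monotone f)
    (h : ∀ j : Fin k, θ j ≤ (f j).val → θ (j + 1) ≤ (f j).val) (j : Fin k) :
    θ (j + 1) ≤ (f j).val := by
  obtain ⟨j, hj⟩ := j
  induction j with
  | zero => exact h _ (by simp [h0])
  | succ j ih =>
    refine h _ ((ih (by omega)).trans ?_)
    exact hf (show (⟨j, by omega⟩ : Fin k) ≤ ⟨j + 1, hj⟩ from Nat.le_succ j)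

theorem greedy_hit {k : ℕ} (U : Fin k → Finset (Fin n)) (g : ℕ)
    (h : #{f : Fin k → Fin n | StrictMono f ∧ ∀ j, f j ∈ U j} < g ^ k) :
    ∃ Z : Finset (Fin n), #Z ≤ k * g ∧
      ∀ f : Fin k → Fin n, Monotone f → (∀ j, f j ∈ U j) → ∃ j, f j ∈ Z := by
  obtain ⟨θ, h0, -, ⟨j, hj⟩, hc⟩ := greedy U g h
  refine ⟨univ.biUnion fun j : Fin k => {c ∈ U j | θ j ≤ c.val ∧ c.val < θ (j + 1)},
    (card_biUnion_le_card_mul _ _ g fun j _ => hc j).trans (by simp), fun f hf hU => ?_⟩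
  by_contra hn
  push Not at hn
  have := pass θ h0 f hf (fun i hi => by
    by_contra g1
    exact hn i (mem_biUnion.2 ⟨i, mem_univ _, mem_filter.2 ⟨hU i, hi, not_le.1 g1⟩⟩)) j
  have := (f j).2
  omega

theorem kill (U V : Finset (Fin n)) (g : ℕ)
    (h : #{p : Fin n × Fin n | p.1 < p.2 ∧ p.1 ∈ U ∧ p.2 ∈ V} < g ^ 2) :
    ∃ Z : Finset (Fin n), #Z ≤ 2 * g ∧ ∀ c ∈ U, ∀ d ∈ V, c < d → c ∈ Z ∨ d ∈ Z := by
  obtain ⟨Z, h1, h2⟩ := greedy_hit ![U, V] g (lt_of_le_of_lt (card_le_card_of_injOn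
    (fun f => (f 0, f 1)) (fun f hf => by
      simp only [coe_filter, mem_univ, true_and, Set.mem_ofPred_eq] at hf ⊢
      exact ⟨hf.1 (by decide), hf.2 0, hf.2 1⟩) (fun f _ f' _ e => by
      simp only [Prod.mk.injEq] at e
      funext j
      fin_cases j
      · exact e.1
      · exact e.2)) h)
  refine ⟨Z, h1, fun c hc d hd hcd => ?_⟩
  obtain ⟨j, hj⟩ := h2 ![c, d] (Fin.monotone_iff_le_succ.2 fun i => by
    fin_cases i; exact hcd.le) (fun j => by
      fin_cases j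
      · exact hc
      · exact hd)
  fin_cases j
  · exact Or.inl hj
  · exact Or.inr hj

theorem markov {α γ : Type} [Fintype α] [DecidableEq α] (Q : Finset γ) (π : γ → α) (x m : ℕ) :
    #{a : α | x ≤ #{q ∈ Q | π q = a} * m} * x ≤ #Q * m := by
  calc #{a : α | x ≤ #{q ∈ Q | π q = a} * m} * x
      = ∑ _a ∈ ({a : α | x ≤ #{q ∈ Q | π q = a} * m} : Finset α), x := by simp
    _ ≤ ∑ a ∈ ({a : α | x ≤ #{q ∈ Q | π q = a} * m} : Finset α), #{q ∈ Q | π q = a} * m :=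
      sum_le_sum fun a ha => (mem_filter.1 ha).2
    _ ≤ ∑ a : α, #{q ∈ Q | π q = a} * m := sum_le_sum_of_subset (subset_univ _)
    _ = #Q * m := by
      rw [← sum_mul, ← card_eq_sum_card_fiberwise (fun q _ => mem_univ (π q))]

/-- A small set of columns meets most of the large sets. -/
theorem hit (hn : 0 < n) (J : Fin n → Finset (Fin n)) (h y p : ℕ) :
    ∃ P : Finset (Fin n), #P ≤ p ∧ (#{r | h ≤ #(J r) ∧ Disjoint (J r) P} ≤ y ∨
      #{r | h ≤ #(J r) ∧ Disjoint (J r) P} * n + p * (y * h) ≤ n * n) := by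
  induction p with
  | zero =>
    refine ⟨∅, le_rfl, Or.inr ?_⟩
    rw [zero_mul, add_zero]
    exact Nat.mul_le_mul_right _ ((card_le_univ _).trans (by simp))
  | succ p ih =>
    obtain ⟨P, h1, h2⟩ := ih
    set R : Finset (Fin n) := {r | h ≤ #(J r) ∧ Disjoint (J r) P} with hR
    by_cases hy : #R ≤ y
    · exact ⟨P, by omega, Or.inl hy⟩
    have h3 := h2.resolve_left hy
    have h4 : ∑ c : Fin n, #{r ∈ R | c ∈ J r} = ∑ r ∈ R, #(J r) := by
      have := sum_card_bipartiteAbove_eq_sum_card_bipartiteBelow (s := (univ : Finset (Fin n)))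
        (t := R) (fun c r => c ∈ J r)
      simpa [bipartiteAbove, bipartiteBelow] using this
    have h5 : y * h ≤ ∑ r ∈ R, #(J r) := by
      calc y * h ≤ #R * h := Nat.mul_le_mul_right _ (by omega)
        _ = ∑ _r ∈ R, h := by simp
        _ ≤ _ := sum_le_sum fun r hr => (mem_filter.1 hr).2.1
    have : Nonempty (Fin n) := ⟨⟨0, hn⟩⟩
    obtain ⟨c, -, hc⟩ := exists_max_image (univ : Finset (Fin n))
      (fun c => #{r ∈ R | c ∈ J r}) univ_nonempty
    have h6 : y * h ≤ n * #{r ∈ R | c ∈ J r} := by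
      calc y * h ≤ ∑ c : Fin n, #{r ∈ R | c ∈ J r} := h4 ▸ h5
        _ ≤ ∑ _c : Fin n, #{r ∈ R | c ∈ J r} := sum_le_sum fun d hd => hc d hd
        _ = _ := by simp
    refine ⟨insert c P, (card_insert_le _ _).trans (by omega), Or.inr ?_⟩
    have h7 : ({r | h ≤ #(J r) ∧ Disjoint (J r) (insert c P)} : Finset (Fin n)) =
        {r ∈ R | ¬ c ∈ J r} := by
      ext r
      simp only [hR, mem_filter, mem_univ, true_and, disjoint_insert_right]
      tauto
    have h8 := card_filter_add_card_filter_not (s := R) (fun r => c ∈ J r)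
    rw [h7]
    nlinarith

end Vale.Agent.N037T
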