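import Vale.Agent.N037T.Exact
import Vale.Agent.N037T.Greedy

/-! Types of rows and the choice of the parameters for the two hard patterns of size two. -/

namespace Vale.Agent.N037T

open Finset
open scoped symmDiff

variable {n : ℕ}

/-- A rounded value of `n / q ^ j`. -/
def un (n q j : ℕ) : ℕ := n / q ^ j + 1

theorem un_pos (n q j : ℕ) : 0 < un n q j := Nat.succ_pos _

theorem un_lb (n j : ℕ) {q : ℕ} (hq : 0 < q) : n < un n q j * q ^ j := by
  have := Nat.lt_div_mul_add (a := n) (pow_pos hq j)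
  unfold un
  nlinarith

theorem un_ub {q : ℕ} (hq : 0 < q) (hn : q ^ 35 ≤ n) {i j : ℕ} (hi : i ≤ j) (hj : j ≤ 35) :
    un n q j * q ^ i ≤ 2 * n := by
  have h1 := Nat.div_mul_le_self n (q ^ j)
  have h2 : q ^ j ≤ q ^ 35 := Nat.pow_le_pow_right hq hj
  have h3 : un n q j * q ^ i ≤ un n q j * q ^ j :=
    Nat.mul_le_mul_left _ (Nat.pow_le_pow_right hq hi)
  unfold un at h3 ⊢
  nlinarith

theorem un_div (n j : ℕ) {q : ℕ} (hq : 0 < q) : n / un n q j ≤ q ^ j :=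
  Nat.div_le_of_le_mul (un_lb n j hq).le

theorem frame_num {α : Type} [DecidableEq α] (q : ℕ) (hq : 0 < q) (hn : q ^ 35 ≤ n)
    (F : Finset (Fin n) → Finset (Fin n) → Prop) (hF0 : ∀ Y, F ∅ Y) (hF1 : ∀ X, F X ∅)
    (hFr : ∀ X, F X X) (S : Fin n → Finset (Fin n)) (E : Finset (Fin n × Fin n))
    (W : Finset (Fin n)) (τ : Fin n → α) (T : Finset α) (hT : ∀ r ∈ W, τ r ∈ T) (a e : ℕ)
    (hTc : #T ≤ 4 * q ^ 8) (hE : 2 * #E * q ^ 36 ≤ n ^ 2) (hW : #Wᶜ * q ≤ 2 * n)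
    (hae : (a + e) * q ≤ 300 * n) (hex : Exact F a e)
    (hclose : ∀ r ∈ W, ∀ s ∈ W, r < s → τ r = τ s → (r, s) ∉ E → #(S r ∆ S s) ≤ a)
    (hkill : ∀ r s, r < s → (r, s) ∉ E → ∃ Z : Finset (Fin n), #Z ≤ 2 * un n q 35 ∧
      ∀ Z', Z ⊆ Z' → F (S r \ Z') (S s \ Z')) :
    ∃ B : Fin n → Finset (Fin n), (∀ r s, r < s → F (B r) (B s)) ∧
      (∑ r, #(S r ∆ B r)) * q ≤ 2000 * n ^ 2 := by
  have hn0 : 0 < n := lt_of_lt_of_le (pow_pos hq 35) hn
  have hK : (n / un n q 9 + 1) * #T ≤ 8 * q ^ 17 := by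
    have h1 := un_div n 9 hq
    have h2 : 1 ≤ q ^ 9 := pow_pos hq 9
    calc _ ≤ (2 * q ^ 9) * (4 * q ^ 8) := Nat.mul_le_mul (by omega) hTc
      _ = _ := by ring
  have hy : 2 * #E ≤ un n q 1 * un n q 35 := by
    refine Nat.le_of_mul_le_mul_right (c := q ^ 36) (hE.trans ?_) (pow_pos hq 36)
    calc n ^ 2 = n * n := sq n
      _ ≤ (un n q 1 * q ^ 1) * (un n q 35 * q ^ 35) :=
        Nat.mul_le_mul (un_lb n 1 hq).le (un_lb n 35 hq).le
      _ = _ := by ring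
  obtain ⟨B, R, h1, h2, h3⟩ := frame hn0 F hF0 hF1 hFr S E W τ T hT a _ e _ _ _ _
    (un_pos n q 9) hK hy hex hclose hkill
  refine ⟨B, h1, ?_⟩
  have u1 := un_ub hq hn (le_refl 1) (by norm_num)
  have u9 := un_ub hq hn (le_refl 9) (by norm_num)
  have u35 := un_ub hq hn (le_refl 35) (by norm_num)
  have h4 : #R * q ≤ 652 * n := by
    have e1 : #T * un n q 9 * q ≤ 8 * n :=
      calc #T * un n q 9 * q ≤ (4 * q ^ 8) * un n q 9 * q := by gcongr
        _ = 4 * (un n q 9 * q ^ 9) := by ring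
        _ ≤ _ := by omega
    have e2 : 5 * (8 * q ^ 17) ^ 2 * un n q 35 * q = 320 * (un n q 35 * q ^ 35) := by ring
    have e3 := Nat.mul_le_mul_right q h3
    rw [pow_one] at u1
    simp only [add_mul] at e3
    omega
  set err := a + 4 * (8 * q ^ 17) ^ 2 * (2 * un n q 35) + e with herr
  have h5 : err * q ≤ 1324 * n := by
    have e2 : err * q = (a + e) * q + 512 * (un n q 35 * q ^ 35) := by rw [herr]; ring
    omega
  have h6 : ∑ r, #(S r ∆ B r) ≤ #R * n + n * err := by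
    calc ∑ r, #(S r ∆ B r) ≤ ∑ r : Fin n, ((if r ∈ R then n else 0) + err) :=
          sum_le_sum fun r _ => by
            split_ifs with h
            · exact le_add_right ((card_le_univ _).trans (by simp))
            · simpa using h2 r h
      _ = _ := by simp [sum_add_distrib]
  calc _ ≤ (#R * n + n * err) * q := Nat.mul_le_mul_right _ h6
    _ = n * (#R * q + err * q) := by ring
    _ ≤ n * (2000 * n) := Nat.mul_le_mul_left _ (by omega)
    _ = _ := by ring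

/-- Pairs of rows with pairs of columns in the sets given by `U` and `V`. -/
def quad (U V : Finset (Fin n) → Finset (Fin n) → Finset (Fin n)) (S : Fin n → Finset (Fin n)) :
    Finset ((Fin n × Fin n) × (Fin n × Fin n)) :=
  {z | z.1.1 < z.1.2 ∧ z.2.1 < z.2.2 ∧ z.2.1 ∈ U (S z.1.1) (S z.1.2) ∧
    z.2.2 ∈ V (S z.1.1) (S z.1.2)}

/-- Pairs of rows with many copies. -/
def heavy (Q : Finset ((Fin n × Fin n) × (Fin n × Fin n))) (x : ℕ) : Finset (Fin n × Fin n) :=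
  {p | x ≤ #{z ∈ Q | z.1 = p} * 1}

theorem heavy_card {q : ℕ} (hq : 0 < q) (hn : 0 < n)
    (Q : Finset ((Fin n × Fin n) × (Fin n × Fin n))) (h : 4 * q ^ 106 * #Q ≤ n ^ 4) :
    4 * #(heavy Q (un n q 35 ^ 2)) * q ^ 36 ≤ n ^ 2 := by
  have h1 : #(heavy Q (un n q 35 ^ 2)) * un n q 35 ^ 2 ≤ #Q * 1 := markov Q Prod.fst _ 1
  refine Nat.le_of_mul_le_mul_right (c := n ^ 2) ?_ (pow_pos hn 2)
  calc _ ≤ 4 * #(heavy Q (un n q 35 ^ 2)) * q ^ 36 * (un n q 35 * q ^ 35) ^ 2 :=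
        Nat.mul_le_mul_left _ (Nat.pow_le_pow_left (un_lb n 35 hq).le 2)
    _ = 4 * q ^ 106 * (#(heavy Q (un n q 35 ^ 2)) * un n q 35 ^ 2) := by ring
    _ ≤ 4 * q ^ 106 * (#Q * 1) := Nat.mul_le_mul_left _ h1
    _ ≤ _ := by rw [mul_one, ← pow_add]; exact h

theorem light_kill (U V : Finset (Fin n) → Finset (Fin n) → Finset (Fin n))
    (S : Fin n → Finset (Fin n)) (g : ℕ) {r s : Fin n} (hrs : r < s)
    (h : (r, s) ∉ heavy (quad U V S) (g ^ 2)) : ∃ Z : Finset (Fin n), #Z ≤ 2 * g ∧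
      ∀ c ∈ U (S r) (S s), ∀ d ∈ V (S r) (S s), c < d → c ∈ Z ∨ d ∈ Z := by
  refine kill _ _ g (lt_of_le_of_lt ?_ (by simpa [heavy] using h))
  exact card_le_card_of_injOn (fun p => ((r, s), p)) (fun p hp => by simpa [quad, hrs] using hp)
    (fun p _ p' _ e => by simpa using e)

theorem same_div {x y u : ℕ} (hu : 0 < u) (h : x / u = y / u) : x < y + u := by
  have e2 := Nat.div_add_mod x u
  have e3 := Nat.div_add_mod y u
  have e4 := Nat.mod_lt x hu
  rw [h] at e2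
  omega

theorem close_FI {X Y Z : Finset (Fin n)} {b u v y : ℕ} (hZ : #Z ≤ b)
    (h : ∀ c ∈ X \ Y, ∀ d ∈ Y \ X, c < d → c ∈ Z ∨ d ∈ Z) (h1 : #Y < #X + u)
    (h2 : ∑ c ∈ X, c.val < ∑ c ∈ Y, c.val + v) (hy : v + n * (u + 2 * b) ≤ y * y) :
    #(X ∆ Y) ≤ 4 * y + 2 * b + u := by
  have e1 := card_sdiff_swap X Y
  have e2 : #(X ∆ Y) ≤ #(X \ Y) + #(Y \ X) := card_union_le _ _
  have e3 : #(X \ Y) ≤ #((X \ Y) \ Z) + b := by
    have := le_card_sdiff Z (X \ Y)
    omega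
  suffices #((X \ Y) \ Z) ≤ 2 * y by omega
  set P := (X \ Y) \ Z with hP
  rcases P.eq_empty_or_nonempty with h0 | h0
  · simp [h0]
  obtain ⟨t, ht, hmin⟩ := P.exists_min_image id h0
  have e4 : ∑ c ∈ X \ Y, c.val < ∑ c ∈ Y \ X, c.val + v := by
    have g1 := sum_inter_add_sum_sdiff X Y (fun c => c.val)
    have g2 := sum_inter_add_sum_sdiff Y X (fun c => c.val)
    rw [inter_comm] at g2
    omega
  have e5 : ∑ c ∈ Y \ X, c.val ≤ t.val * #(Y \ X) + n * b := by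
    calc ∑ c ∈ Y \ X, c.val ≤ ∑ c ∈ Y \ X, (t.val + if c ∈ Z then n else 0) :=
          sum_le_sum fun c hc => by
            split_ifs with g
            · have := c.2; omega
            · by_contra g2
              rcases h t (mem_sdiff.1 ht).1 c hc (Fin.lt_def.2 (by omega)) with g3 | g3
              · exact (mem_sdiff.1 ht).2 g3
              · exact g g3
      _ = t.val * #(Y \ X) + n * #((Y \ X) ∩ Z) := by
          rw [sum_add_distrib, sum_ite_mem]; simp [mul_comm]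
      _ ≤ _ := add_le_add le_rfl
          (Nat.mul_le_mul_left _ ((card_le_card inter_subset_right).trans hZ))
  have e6 : t.val * #P + y * #{c ∈ P | t.val + y ≤ c.val} ≤ ∑ c ∈ X \ Y, c.val := by
    calc _ = ∑ c ∈ P, (t.val + if t.val + y ≤ c.val then y else 0) := by
          rw [sum_add_distrib, ← sum_filter]; simp [mul_comm]
      _ ≤ ∑ c ∈ P, c.val := sum_le_sum fun c hc => by
          split_ifs with g
          · exact g
          · exact hmin c hc
      _ ≤ _ := sum_le_sum_of_subset sdiff_subset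
  have e7 : #{c ∈ P | ¬ t.val + y ≤ c.val} ≤ y := by
    have := card_le_card_of_injOn (s := {c ∈ P | ¬ t.val + y ≤ c.val}) (t := Ico t.val (t.val + y))
      (fun c => c.val) (fun c hc => by
        have g := mem_filter.1 (mem_coe.1 hc)
        exact mem_coe.2 (mem_Ico.2 ⟨hmin c g.1, not_le.1 g.2⟩)) (fun c _ d _ e => Fin.ext e)
    simpa using this
  have e8 := card_filter_add_card_filter_not (s := P) (fun c => t.val + y ≤ c.val)
  have e9 : t.val * #(Y \ X) ≤ t.val * #P + n * (b + u) := by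
    calc t.val * #(Y \ X) ≤ t.val * (#P + (b + u)) := Nat.mul_le_mul_left _ (by omega)
      _ = t.val * #P + t.val * (b + u) := by ring
      _ ≤ _ := add_le_add le_rfl (Nat.mul_le_mul_right _ t.2.le)
  have e10 : y * #{c ∈ P | t.val + y ≤ c.val} < y * y := by
    have : n * (u + 2 * b) = n * (b + u) + n * b := by ring
    omega
  have := lt_of_mul_lt_mul_left e10 (Nat.zero_le _)
  omega

theorem main_FI {q : ℕ} (hq : 0 < q) (hn : q ^ 35 ≤ n) (S : Fin n → Finset (Fin n))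
    (h : 4 * q ^ 106 * #(quad (fun X Y => X \ Y) (fun X Y => Y \ X) S) ≤ n ^ 4) :
    ∃ B : Fin n → Finset (Fin n), (∀ r s, r < s → FI (B r) (B s)) ∧
      (∑ r, #(S r ∆ B r)) * q ≤ 2000 * n ^ 2 := by
  have hn0 : 0 < n := lt_of_lt_of_le (pow_pos hq 35) hn
  have hE := heavy_card hq hn0 _ h
  set a := 4 * (4 * un n q 2) + 2 * (2 * un n q 35) + un n q 4 with ha
  have ha2 : a * q ^ 2 ≤ 42 * n := by
    have u1 := un_ub hq hn (le_refl 2) (by norm_num)
    have u2 := un_ub hq hn (show 2 ≤ 35 by norm_num) (by norm_num)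
    have u3 := un_ub hq hn (show 2 ≤ 4 by norm_num) (by norm_num)
    have : a * q ^ 2 = 16 * (un n q 2 * q ^ 2) + 4 * (un n q 35 * q ^ 2) + un n q 4 * q ^ 2 := by
      rw [ha]; ring
    omega
  refine frame_num q hq hn FI (fun Y c d _ g => by simp at g) (fun X c d _ _ _ g => by simp at g)
    (fun X c d _ _ _ g => g) S (heavy (quad (fun X Y => X \ Y) (fun X Y => Y \ X) S) (un n q 35 ^ 2))
    univ (fun r => (#(S r) / un n q 4, (∑ c ∈ S r, c.val) / (n * un n q 4)))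
    (range (q ^ 4 + 1) ×ˢ range (q ^ 4 + 1)) (fun r _ => ?_) a ((q + 2) * (2 * a) + 2 * un n q 1)
    ?_ (le_trans (by gcongr; norm_num) hE) (by simp) ?_
    (exact_FI a _ q (un_pos n q 1) (by simpa using un_div n 1 hq)) ?_ ?_
  · have g1 : #(S r) ≤ n := (card_le_univ _).trans (by simp)
    have g2 : ∑ c ∈ S r, c.val ≤ n * n :=
      (sum_le_card_nsmul _ _ n fun c _ => c.2.le).trans (Nat.mul_le_mul_right _ g1)
    have g3 := Nat.div_le_div_right (c := un n q 4) g1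
    have g4 := Nat.div_le_div_right (c := n * un n q 4) g2
    rw [Nat.mul_div_mul_left _ _ hn0] at g4
    have := un_div n 4 hq
    simp only [mem_product, mem_range]
    omega
  · have : 1 ≤ q ^ 4 := pow_pos hq 4
    rw [card_product, card_range]
    calc _ ≤ (2 * q ^ 4) * (2 * q ^ 4) := Nat.mul_le_mul (by omega) (by omega)
      _ = _ := by ring
  · have u1 := un_ub hq hn (le_refl 1) (by norm_num)
    have g1 : a * q ≤ a * q ^ 2 := Nat.mul_le_mul_left _ (by nlinarith)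
    have g2 : (a + ((q + 2) * (2 * a) + 2 * un n q 1)) * q =
        2 * (a * q ^ 2) + 5 * (a * q) + 2 * (un n q 1 * q ^ 1) := by ring
    omega
  · intro r _ s _ hrs ht hb
    obtain ⟨Z, g1, g2⟩ := light_kill _ _ S _ hrs hb
    simp only [Prod.mk.injEq] at ht
    refine close_FI g1 g2 (same_div (un_pos n q 4) ht.1.symm)
      (same_div (Nat.mul_pos hn0 (un_pos n q 4)) ht.2) ?_
    refine Nat.le_of_mul_le_mul_right (c := q ^ 4) ?_ (pow_pos hq 4)
    have u1 := un_ub hq hn (le_refl 4) (by norm_num)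
    have u2 := un_ub hq hn (show 4 ≤ 35 by norm_num) (by norm_num)
    calc _ = n * (2 * (un n q 4 * q ^ 4) + 4 * (un n q 35 * q ^ 4)) := by ring
      _ ≤ n * (16 * n) := Nat.mul_le_mul_left _ (by omega)
      _ = 16 * (n * n) := by ring
      _ ≤ 16 * ((un n q 2 * q ^ 2) * (un n q 2 * q ^ 2)) :=
        Nat.mul_le_mul_left _ (Nat.mul_le_mul (un_lb n 2 hq).le (un_lb n 2 hq).le)
      _ = _ := by ring
  · intro r s hrs hb
    obtain ⟨Z, g1, g2⟩ := light_kill _ _ S _ hrs hb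
    refine ⟨Z, g1, fun Z' hZ c d hcd c1 c2 d1 => ?_⟩
    simp only [mem_sdiff] at c1 c2 d1 g2 ⊢
    refine ⟨?_, d1.2⟩
    by_contra d2
    rcases g2 c ⟨c1.1, fun g => c2 ⟨g, c1.2⟩⟩ d ⟨d1.1, d2⟩ hcd with g | g
    · exact c1.2 (hZ g)
    · exact d1.2 (hZ g)

theorem close_FG {X Y A B : Finset (Fin n)} {x g u : ℕ} (hA : A ⊆ X) (hB : B ⊆ Y)
    (h1 : #(X \ A) ≤ x) (h2 : #(Y \ B) ≤ x) (h3 : #(A \ B) ≤ g) (h4 : #B < #A + u) :
    #(X ∆ Y) ≤ 2 * x + 2 * g + u := by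
  have g2 := card_sdiff_swap A B
  have g6 : X ∆ Y ⊆ (X \ A) ∪ (Y \ B) ∪ (A \ B) ∪ (B \ A) := by
    intro d hd
    have k1 : d ∈ A → d ∈ X := fun g => hA g
    have k2 : d ∈ B → d ∈ Y := fun g => hB g
    simp only [mem_symmDiff, mem_union, mem_sdiff] at hd ⊢
    tauto
  have g7 := (card_le_card g6).trans ((card_union_le _ _).trans (add_le_add
    ((card_union_le _ _).trans (add_le_add (card_union_le _ _) le_rfl)) le_rfl))
  omega

theorem anchor_card {q : ℕ} (hq : 0 < q) (hn0 : 0 < n)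
    (Q : Finset ((Fin n × Fin n) × (Fin n × Fin n))) (P : Finset (Fin n)) (hP : #P ≤ q ^ 2)
    (hc : ∀ c ∈ P, #{z ∈ Q | z.2.1 = c} * (4 * q ^ 73) < n ^ 3) :
    4 * #(P.biUnion fun c => heavy {z ∈ Q | z.2.1 = c} (un n q 35)) * q ^ 36 ≤ n ^ 2 := by
  have g1 : ∀ c ∈ P, #(heavy {z ∈ Q | z.2.1 = c} (un n q 35)) * (4 * q ^ 38) ≤ n ^ 2 := by
    intro c hc'
    have g2 : #(heavy {z ∈ Q | z.2.1 = c} (un n q 35)) * un n q 35 ≤ #{z ∈ Q | z.2.1 = c} * 1 :=
      markov _ Prod.fst _ 1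
    refine Nat.le_of_mul_le_mul_right (c := n) ?_ hn0
    calc _ ≤ #(heavy {z ∈ Q | z.2.1 = c} (un n q 35)) * (4 * q ^ 38) * (un n q 35 * q ^ 35) :=
          Nat.mul_le_mul_left _ (un_lb n 35 hq).le
      _ = #(heavy {z ∈ Q | z.2.1 = c} (un n q 35)) * un n q 35 * (4 * q ^ 73) := by ring
      _ ≤ #{z ∈ Q | z.2.1 = c} * 1 * (4 * q ^ 73) := Nat.mul_le_mul_right _ g2
      _ ≤ _ := by rw [mul_one, ← pow_succ]; exact (hc c hc').le
  refine Nat.le_of_mul_le_mul_right (c := q ^ 2) ?_ (pow_pos hq 2)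
  calc _ = #(P.biUnion fun c => heavy {z ∈ Q | z.2.1 = c} (un n q 35)) * (4 * q ^ 38) := by ring
    _ ≤ (∑ c ∈ P, #(heavy {z ∈ Q | z.2.1 = c} (un n q 35))) * (4 * q ^ 38) :=
      Nat.mul_le_mul_right _ card_biUnion_le
    _ ≤ #P * n ^ 2 := by rw [sum_mul]; exact sum_le_card_nsmul _ _ _ g1
    _ ≤ _ := by rw [mul_comm]; exact Nat.mul_le_mul_left _ hP

theorem main_FG {q : ℕ} (hq : 0 < q) (hn : q ^ 35 ≤ n) (S : Fin n → Finset (Fin n))
    (h : 4 * q ^ 106 * #(quad (fun X Y => X ∩ Y) (fun X Y => X \ Y) S) ≤ n ^ 4) :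
    ∃ B : Fin n → Finset (Fin n), (∀ r s, r < s → FG (B r) (B s)) ∧
      (∑ r, #(S r ∆ B r)) * q ≤ 2000 * n ^ 2 := by
  have hn0 : 0 < n := lt_of_lt_of_le (pow_pos hq 35) hn
  have hE := heavy_card hq hn0 _ h
  set Q := quad (fun X Y => X ∩ Y) (fun X Y => X \ Y) S with hQ
  let Bd : Finset (Fin n) := {c | n ^ 3 ≤ #{z ∈ Q | z.2.1 = c} * (4 * q ^ 73)}
  have hBd : #Bd * q ≤ n := by
    have h1 : #Bd * n ^ 3 ≤ #Q * (4 * q ^ 73) := markov Q (fun z => z.2.1) _ _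
    refine Nat.le_of_mul_le_mul_right (c := n ^ 3) ?_ (pow_pos hn0 3)
    calc #Bd * q * n ^ 3 = #Bd * n ^ 3 * q ^ 1 := by ring
      _ ≤ #Q * (4 * q ^ 73) * q ^ 33 :=
        Nat.mul_le_mul h1 (Nat.pow_le_pow_right hq (by norm_num))
      _ = 4 * q ^ 106 * #Q := by ring
      _ ≤ _ := h.trans (le_of_eq (by ring))
  choose θ _ hθ1 hθ2 using fun r => window (S r \ Bd) (un n q 1) 0
  let J : Fin n → Finset (Fin n) := fun r => {c ∈ S r \ Bd | 0 ≤ c.val ∧ c.val < θ r}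
  obtain ⟨P0, hP0, hP1⟩ := hit hn0 J (un n q 1) (un n q 1) (q ^ 2)
  have hP2 : #{r | un n q 1 ≤ #(J r) ∧ Disjoint (J r) P0} ≤ un n q 1 := by
    refine hP1.resolve_right fun g => ?_
    have g1 := Nat.mul_lt_mul'' (un_lb n 1 hq) (un_lb n 1 hq)
    have g2 : un n q 1 * q ^ 1 * (un n q 1 * q ^ 1) = q ^ 2 * (un n q 1 * un n q 1) := by ring
    omega
  let P := P0 \ Bd
  have hP : #P ≤ q ^ 2 := (card_le_card sdiff_subset).trans hP0
  have ho : ∀ r, ∃ o : Option (Fin n), (∀ c, o = some c → c ∈ J r ∧ c ∈ P) ∧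
      (o = none → Disjoint (J r) P0) := by
    intro r
    by_cases g : Disjoint (J r) P0
    · exact ⟨none, by simp, fun _ => g⟩
    · obtain ⟨c, g1, g2⟩ := not_disjoint_iff.1 g
      refine ⟨some c, fun d hd => ?_, by simp⟩
      obtain rfl : c = d := by simpa using hd
      exact ⟨g1, mem_sdiff.2 ⟨g2, (mem_sdiff.1 (mem_filter.1 g1).1).2⟩⟩
  choose o ho1 ho2 using ho
  let Suf : Fin n → Finset (Fin n) := fun r => {d ∈ S r | ∃ c, o r = some c ∧ c < d}
  let E2 : Finset (Fin n × Fin n) :=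
    P.biUnion fun c => heavy {z ∈ Q | z.2.1 = c} (un n q 35)
  have hE2 : 4 * #E2 * q ^ 36 ≤ n ^ 2 := anchor_card hq hn0 Q P hP fun c hc => by
    simpa [Bd] using (mem_sdiff.1 hc).2
  let W : Finset (Fin n) := ({r | un n q 1 ≤ #(J r) ∧ Disjoint (J r) P0} : Finset (Fin n))ᶜ
  have hpre : ∀ r ∈ W, #(S r \ Suf r) ≤ un n q 1 + #Bd := by
    intro r hr
    refine le_trans (card_le_card (t := J r ∪ Bd) fun d hd => ?_)
      ((card_union_le _ _).trans (add_le_add (hθ1 r) le_rfl))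
    obtain ⟨d1, d2⟩ := mem_sdiff.1 hd
    by_cases d3 : d ∈ Bd
    · exact mem_union_right _ d3
    refine mem_union_left _ (mem_filter.2 ⟨mem_sdiff.2 ⟨d1, d3⟩, Nat.zero_le _, ?_⟩)
    rcases e : o r with _ | c
    · have g1 : #(J r) < un n q 1 := by
        by_contra g
        exact mem_compl.1 hr (mem_filter.2 ⟨mem_univ _, not_lt.1 g, ho2 r e⟩)
      exact lt_of_lt_of_le d.2 ((hθ2 r).resolve_left g1.ne)
    · have g1 : d ≤ c := not_lt.1 fun g => d2 (mem_filter.2 ⟨d1, c, e, g⟩)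
      exact lt_of_le_of_lt g1 (mem_filter.1 (ho1 r c e).1).2.2
  have u1 := un_ub hq hn (le_refl 1) (by norm_num)
  have u2 := un_ub hq hn (show 1 ≤ 35 by norm_num) (by norm_num)
  rw [pow_one] at u1 u2
  refine frame_num q hq hn FG (fun Y c d _ g => by simp at g) (fun X c d _ _ g => by simp at g)
    (fun X c d _ _ _ g => g) S (heavy Q (un n q 35 ^ 2) ∪ E2) W
    (fun r => (o r, #(Suf r) / un n q 1)) (insert none (P.image some) ×ˢ range (q + 1))
    (fun r _ => ?_) (2 * (un n q 1 + #Bd) + 2 * un n q 35 + un n q 1) _ ?_ ?_ ?_ ?_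
    (exact_FG _) ?_ ?_
  · have g1 : #(Suf r) ≤ n := (card_le_univ _).trans (by simp)
    have g3 := Nat.div_le_div_right (c := un n q 1) g1
    have := un_div n 1 hq
    rw [pow_one] at this
    refine mem_product.2 ⟨?_, mem_range.2 (by simp only; omega)⟩
    rcases e : o r with _ | c
    · simp
    · exact mem_insert_of_mem (mem_image_of_mem _ (ho1 r c e).2)
  · have g1 : 1 ≤ q ^ 2 := pow_pos hq 2
    have g2 := card_insert_le none (P.image some)
    have g3 : #(P.image some) ≤ #P := card_image_le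
    rw [card_product, card_range]
    calc _ ≤ (2 * q ^ 2) * (2 * q) := Nat.mul_le_mul (by omega) (by omega)
      _ = 4 * q ^ 3 := by ring
      _ ≤ _ := Nat.mul_le_mul_left _ (Nat.pow_le_pow_right hq (by norm_num))
  · have g1 := Nat.mul_le_mul_right (q ^ 36) (card_union_le (heavy Q (un n q 35 ^ 2)) E2)
    simp only [mul_assoc, add_mul] at hE hE2 g1 ⊢
    omega
  · simp only [W, compl_compl]
    exact (Nat.mul_le_mul_right _ hP2).trans u1
  · simp only [add_mul, mul_add, mul_assoc]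
    omega
  · intro r hr s hs hrs ht hb
    simp only [Prod.mk.injEq] at ht
    have g1 : #(Suf r \ Suf s) ≤ un n q 35 := by
      rcases (Suf r \ Suf s).eq_empty_or_nonempty with g | ⟨d0, g⟩
      · simp [g]
      obtain ⟨c, e, -⟩ := (mem_filter.1 (mem_sdiff.1 g).1).2
      have e' : o s = some c := ht.1 ▸ e
      have g2 : (r, s) ∉ heavy {z ∈ Q | z.2.1 = c} (un n q 35) := fun g3 =>
        hb (mem_union_right _ (mem_biUnion.2 ⟨c, (ho1 r c e).2, g3⟩))
      have g3 : #{z ∈ {z ∈ Q | z.2.1 = c} | z.1 = (r, s)} < un n q 35 := by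
        simpa [heavy] using g2
      refine le_trans (card_le_card_of_injOn (fun d => ((r, s), (c, d))) (fun d hd => ?_)
        (fun d _ d' _ e => by simpa using e)) g3.le
      obtain ⟨d1, d2⟩ := mem_sdiff.1 (mem_coe.1 hd)
      obtain ⟨d3, c', d4, d5⟩ := mem_filter.1 d1
      obtain rfl : c = c' := by simpa [e] using d4
      have d6 : d ∉ S s := fun g4 => d2 (mem_filter.2 ⟨g4, c, e', d5⟩)
      have c1 := (mem_sdiff.1 (mem_filter.1 (ho1 r c e).1).1).1
      have c2 := (mem_sdiff.1 (mem_filter.1 (ho1 s c e').1).1).1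
      simp [hQ, quad, hrs, d5, d3, d6, c1, c2]
    exact close_FG (filter_subset _ _) (filter_subset _ _) (hpre r hr) (hpre s hs) g1
      (same_div (un_pos n q 1) ht.2.symm)
  · intro r s hrs hb
    obtain ⟨Z, g1, g2⟩ := light_kill _ _ S _ hrs fun g => hb (mem_union_left _ g)
    refine ⟨Z, g1, fun Z' hZ c d hcd c1 c2 d1 => ?_⟩
    simp only [mem_sdiff, mem_inter] at c1 c2 d1 g2 ⊢
    refine ⟨?_, d1.2⟩
    by_contra d2
    rcases g2 c ⟨c1.1, c2.1⟩ d ⟨d1.1, d2⟩ hcd with g | g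
    · exact c1.2 (hZ g)
    · exact d1.2 (hZ g)

end Vale.Agent.N037T
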