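import Vale.Agent.N037T.Defs
import Vale.Agent.N037T.Types

/-! Symmetries, blow-ups and one-row patterns. -/

namespace Vale.Agent.N037T

open Finset Matrix

variable {s t k l n : ℕ}

/-- The number of differing entries. -/
abbrev dst (A B : Matrix (Fin n) (Fin n) Bool) : ℕ :=
  hammingDist (Function.uncurry A) (Function.uncurry B)

theorem copies_eq_zero {H : Matrix (Fin s) (Fin t) Bool} {A : Matrix (Fin n) (Fin n) Bool} :
    copies H A = 0 ↔ ∀ r c, StrictMono r → StrictMono c → A.submatrix r c ≠ H := by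
  unfold copies
  rw [Set.ncard_eq_zero (Set.toFinite _), Set.eq_empty_iff_forall_notMem]
  exact ⟨fun h r c h1 h2 h3 => h (r, c) ⟨h1, h2, h3⟩, fun h p hp => h _ _ hp.1 hp.2.1 hp.2.2⟩

theorem one_le_copies {H : Matrix (Fin s) (Fin t) Bool} {A : Matrix (Fin n) (Fin n) Bool} {ε : ℝ}
    (hn : 1 ≤ n) (hε : 0 < ε) (h : Far ε H A) : 1 ≤ copies H A := by
  by_contra h0
  have h1 := h A (by omega)
  have h2 : (0 : ℝ) < ε * (n : ℝ) ^ 2 := by positivity
  simp only [hammingDist_self, Nat.cast_zero] at h1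
  linarith

/-- The columns whose entries on the rows `r` form the column `j` of `H`. -/
def cols (H : Matrix (Fin s) (Fin t) Bool) (A : Matrix (Fin n) (Fin n) Bool) (r : Fin s → Fin n)
    (j : Fin t) : Finset (Fin n) := {c | ∀ i, A (r i) c = H i j}

theorem copies_eq_sum (H : Matrix (Fin s) (Fin t) Bool) (A : Matrix (Fin n) (Fin n) Bool) :
    copies H A = ∑ r ∈ ({r | StrictMono r} : Finset (Fin s → Fin n)),
      #{c : Fin t → Fin n | StrictMono c ∧ ∀ j, c j ∈ cols H A r j} := by
  let P : Finset ((Fin s → Fin n) × (Fin t → Fin n)) :=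
    {p | StrictMono p.1 ∧ StrictMono p.2 ∧ ∀ j, p.2 j ∈ cols H A p.1 j}
  have h1 : copies H A = #P := by
    rw [← Set.ncard_coe_finset]
    unfold copies
    congr 1
    ext p
    simp only [P, cols, Set.mem_ofPred_eq, coe_filter, mem_filter, mem_univ, true_and,
      ← Matrix.ext_iff, submatrix_apply]
    exact and_congr_right fun _ => and_congr_right fun _ => forall_comm
  rw [h1, card_eq_sum_card_fiberwise (f := Prod.fst)
    (t := ({r | StrictMono r} : Finset (Fin s → Fin n)))
    (fun p hp => by simpa using (mem_filter.1 (mem_coe.1 hp)).2.1)]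
  refine sum_congr rfl fun r hr => card_nbij' Prod.snd (fun c => (r, c)) (fun p hp => ?_)
    (fun c hc => ?_) (fun p hp => ?_) (fun c _ => rfl)
  · obtain ⟨g1, g2⟩ := mem_filter.1 (mem_coe.1 hp)
    subst g2
    exact mem_coe.2 (mem_filter.2 ⟨mem_univ _, (mem_filter.1 g1).2.2⟩)
  · exact mem_coe.2 (mem_filter.2 ⟨mem_filter.2 ⟨mem_univ _, (mem_filter.1 hr).2,
      (mem_filter.1 (mem_coe.1 hc)).2⟩, rfl⟩)
  · exact Prod.ext (mem_filter.1 (mem_coe.1 hp)).2.symm rfl

theorem transfer {s' t' : ℕ} {H : Matrix (Fin s) (Fin t) Bool} {H' : Matrix (Fin s') (Fin t') Bool}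
    (hst : s + t = s' + t')
    (Ψ : ∀ n, Matrix (Fin n) (Fin n) Bool → Matrix (Fin n) (Fin n) Bool)
    (hi : ∀ n A, Ψ n (Ψ n A) = A) (h1 : ∀ n A, copies H A ≤ copies H' (Ψ n A))
    (h2 : ∀ n A, copies H' A ≤ copies H (Ψ n A))
    (hd : ∀ n A B, dst (Ψ n A) (Ψ n B) = dst A B) (h : PolyRemoval H) : PolyRemoval H' := by
  obtain ⟨c, C, hc, hC, h⟩ := h
  refine ⟨c, C, hc, hC, fun n ε A hn h0 hε hF => ?_⟩
  have g1 := h n ε (Ψ n A) hn h0 hε fun B hB => by
    have g2 := h2 n (Ψ n B)
    rw [hi, hB] at g2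
    have g3 := hF (Ψ n B) (by omega)
    have g4 := hd n (Ψ n A) B
    rw [hi] at g4
    exact g3.trans (le_of_eq (by exact_mod_cast g4))
  have g5 := h1 n (Ψ n A)
  rw [hi] at g5
  rw [← hst]
  exact g1.trans (by exact_mod_cast g5)

theorem dst_equiv (e : Fin n × Fin n ≃ Fin n × Fin n) (x y : Fin n × Fin n → Bool) :
    hammingDist (x ∘ e) (y ∘ e) = hammingDist x y :=
  card_equiv e (by simp)

theorem PolyRemoval.transpose {H : Matrix (Fin s) (Fin t) Bool} (h : PolyRemoval H) :
    PolyRemoval Hᵀ := by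
  have key : ∀ {s t : ℕ} (H : Matrix (Fin s) (Fin t) Bool) n (A : Matrix (Fin n) (Fin n) Bool),
      copies H A ≤ copies Hᵀ Aᵀ := fun H n A =>
    Set.ncard_le_ncard_of_injOn Prod.swap (fun p hp => ⟨hp.2.1, hp.1, by rw [← hp.2.2]; rfl⟩)
      Prod.swap_injective.injOn (Set.toFinite _)
  exact transfer (add_comm _ _) (fun _ A => Aᵀ) (fun _ _ => rfl) (key H) (key Hᵀ)
    (fun n A B => dst_equiv (Equiv.prodComm _ _) (Function.uncurry A) (Function.uncurry B)) h

theorem PolyRemoval.compl {H : Matrix (Fin s) (Fin t) Bool} (h : PolyRemoval H) :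
    PolyRemoval (H.map not) := by
  have key : ∀ (H : Matrix (Fin s) (Fin t) Bool) n (A : Matrix (Fin n) (Fin n) Bool),
      copies H A ≤ copies (H.map not) (A.map not) := fun H n A =>
    Set.ncard_le_ncard (fun p hp => ⟨hp.1, hp.2.1, by rw [← hp.2.2]; rfl⟩) (Set.toFinite _)
  have inv : ∀ {a b : ℕ} (A : Matrix (Fin a) (Fin b) Bool), (A.map not).map not = A :=
    fun A => by ext i j; simp
  refine transfer rfl (fun _ A => A.map not) (fun _ A => inv A) (key H)
    (fun n A => by simpa only [inv] using key (H.map not) n A) (fun n A B => ?_) h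
  exact hammingDist_comp (fun _ => not) (x := Function.uncurry A) (y := Function.uncurry B)
    fun _ _ _ e => Bool.not_inj e

theorem PolyRemoval.rev {H : Matrix (Fin s) (Fin t) Bool} (h : PolyRemoval H) :
    PolyRemoval (H.submatrix Fin.rev id) := by
  have key : ∀ (H : Matrix (Fin s) (Fin t) Bool) n (A : Matrix (Fin n) (Fin n) Bool),
      copies H A ≤ copies (H.submatrix Fin.rev id) (A.submatrix Fin.rev id) := fun H n A =>
    Set.ncard_le_ncard_of_injOn (fun p => (Fin.rev ∘ p.1 ∘ Fin.rev, p.2))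
      (fun p hp => ⟨fun i j hij => Fin.rev_lt_rev.2 (hp.1 (Fin.rev_lt_rev.2 hij)), hp.2.1, by
        rw [← hp.2.2]; ext i j; simp⟩)
      (fun p _ p' _ e => by
        simp only [Prod.mk.injEq] at e
        refine Prod.ext (funext fun i => ?_) e.2
        simpa using congrFun e.1 i.rev) (Set.toFinite _)
  have inv : ∀ {a b : ℕ} (A : Matrix (Fin a) (Fin b) Bool),
      (A.submatrix Fin.rev id).submatrix Fin.rev id = A := fun A => by ext i j; simp
  exact transfer rfl (fun _ A => A.submatrix Fin.rev id) (fun _ A => inv A) (key H)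
    (fun n A => by simpa only [inv] using key (H.submatrix Fin.rev id) n A)
    (fun n A B => dst_equiv (Equiv.prodCongr Fin.revPerm (Equiv.refl _))
      (Function.uncurry A) (Function.uncurry B)) h

theorem card_meet (Z : Finset (Fin n)) :
    #{c : Fin t → Fin n | ∃ a, c a ∈ Z} * n ≤ t * #Z * n ^ t := by
  have h1 : ∀ a : Fin t, #{c : Fin t → Fin n | c a ∈ Z} * n = #Z * n ^ t := by
    intro a
    have e : ({c | c a ∈ Z} : Finset (Fin t → Fin n)) =
        Fintype.piFinset (Function.update (fun _ => univ) a Z) := by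
      ext c
      simp only [mem_filter, mem_univ, true_and, Fintype.mem_piFinset]
      refine ⟨fun h b => ?_, fun h => by simpa using h a⟩
      by_cases g : b = a
      · subst g; simpa using h
      · simp [Function.update_of_ne g]
    rw [e, Fintype.card_piFinset, ← mul_prod_erase _ _ (mem_univ a), Function.update_self,
      prod_congr rfl (g := fun _ => n) (fun b hb => by
        simp [Function.update_of_ne (ne_of_mem_erase hb)]), prod_const, card_erase_of_mem (mem_univ a),
      card_univ, Fintype.card_fin, mul_assoc, ← pow_succ, Nat.sub_add_cancel a.pos]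
  calc _ ≤ (∑ a : Fin t, #{c : Fin t → Fin n | c a ∈ Z}) * n := by
        refine Nat.mul_le_mul_right _ (le_trans (card_le_card fun c hc => ?_) card_biUnion_le)
        simpa using hc
    _ = _ := by rw [sum_mul]; simp [h1, mul_assoc]

theorem blow_count (H : Matrix (Fin s) (Fin t) Bool) (v : Fin l → Fin t) (hv : Monotone v)
    (A : Matrix (Fin n) (Fin n) Bool) (g : ℕ) :
    copies H A * n * g ^ l ≤
      n ^ s * (t * (l * g) * n ^ t * g ^ l) + copies (H.submatrix id v) A * (n ^ t * n) := by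
  rw [copies_eq_sum, copies_eq_sum, sum_mul, sum_mul, sum_mul]
  have h1 : #({r | StrictMono r} : Finset (Fin s → Fin n)) ≤ n ^ s :=
    (card_le_univ _).trans (by simp)
  refine le_trans (sum_le_sum fun r _ => ?_) (le_trans (sum_add_distrib.le) (add_le_add
    ((sum_const (t * (l * g) * n ^ t * g ^ l)).le.trans (Nat.mul_le_mul_right _ h1)) le_rfl))
  by_cases h : #{c : Fin l → Fin n | StrictMono c ∧ ∀ j, c j ∈ cols (H.submatrix id v) A r j} < g ^ l
  · obtain ⟨Z, g1, g2⟩ := greedy_hit _ g h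
    refine le_add_right (Nat.mul_le_mul_right _ (le_trans (Nat.mul_le_mul_right _
      (card_le_card fun c hc => ?_)) ((card_meet Z).trans (by gcongr))))
    obtain ⟨-, g3, g4⟩ := mem_filter.1 hc
    obtain ⟨j, g5⟩ := g2 (c ∘ v) (g3.monotone.comp hv) fun j => g4 (v j)
    exact mem_filter.2 ⟨mem_univ _, v j, g5⟩
  · refine le_add_left ?_
    rw [mul_comm]
    exact Nat.mul_le_mul (not_lt.1 h)
      (Nat.mul_le_mul_right _ ((card_le_univ _).trans (by simp)))

theorem PolyRemoval.blow_col {H : Matrix (Fin s) (Fin t) Bool} (h : PolyRemoval H)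
    (v : Fin l → Fin t) (hv : Monotone v) (hs : Function.Surjective v) :
    PolyRemoval (H.submatrix id v) := by
  obtain ⟨c, C, hc, hC, h⟩ := h
  obtain ⟨σ, hσ⟩ := hs.hasRightInverse
  have hσm : StrictMono σ := fun a b hab => by
    by_contra g
    have := hv (not_lt.1 g)
    rw [hσ, hσ] at this
    exact absurd hab (not_lt.2 this)
  set K : ℝ := 2 * (t * l + 1) with hK
  have hK2 : 2 ≤ K := by rw [hK]; have : (0 : ℝ) ≤ t * l := by positivity
                         linarith
  have hm : 0 < min c 1 := lt_min hc one_pos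
  refine ⟨(min c 1 / (2 * K)) ^ (s + l + 1), C * (s + l + 1 : ℕ), by positivity, by positivity,
    fun n ε A hn h0 hε hF => ?_⟩
  have hN := h n ε A hn h0 hε fun B hB => hF B (copies_eq_zero.2 fun r c' g1 g2 g3 =>
    copies_eq_zero.1 hB r (c' ∘ σ) g1 (g2.comp hσm) (by
      ext i j
      have := congrFun (congrFun g3 i) (σ j)
      simpa [hσ j] using this))
  have h1 : (1 : ℝ) ≤ copies (H.submatrix id v) A := by exact_mod_cast one_le_copies hn h0 hF
  set δ : ℝ := min c 1 * ε ^ C with hδ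
  have hε1 : ε ^ C ≤ 1 := Real.rpow_le_one h0.le hε.le hC.le
  have hεp : 0 < ε ^ C := Real.rpow_pos_of_pos h0 C
  have hδ0 : 0 < δ := mul_pos hm hεp
  have hδ1 : δ ≤ 1 := mul_le_one₀ (min_le_right _ _) hεp.le hε1
  have hn0 : (0 : ℝ) < n := by exact_mod_cast hn
  have hN2 : δ * n ^ (s + t) ≤ copies H A :=
    le_trans (by rw [hδ]; gcongr; exact min_le_left _ _) hN
  have e1 : (min c 1 / (2 * K)) ^ (s + l + 1) * ε ^ (C * (s + l + 1 : ℕ)) =
      (δ / (2 * K)) ^ (s + l + 1) := by
    rw [Real.rpow_mul_natCast h0.le, ← mul_pow, hδ]; congr 1; ring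
  rw [e1]
  set ρ := δ / (2 * K) with hρ
  have hρ0 : 0 < ρ := by positivity
  have hρ2 : ρ ≤ δ / 2 := by rw [hρ]; gcongr; linarith
  have hρ1 : ρ ≤ 1 := by linarith
  by_cases hb : ρ * n ≤ 1
  · calc ρ ^ (s + l + 1) * (n : ℝ) ^ (s + l) = ρ * (ρ * n) ^ (s + l) := by rw [mul_pow]; ring
      _ ≤ 1 * 1 := mul_le_mul hρ1 (pow_le_one₀ (by positivity) hb) (by positivity) zero_le_one
      _ ≤ _ := by linarith
  have g1 : (⌊2 * ρ * n⌋₊ : ℝ) ≤ 2 * ρ * n := Nat.floor_le (by positivity)
  have g2 : ρ * n ≤ ⌊2 * ρ * n⌋₊ := by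
    have := Nat.lt_floor_add_one (2 * ρ * n)
    linarith
  have g3 := (Nat.cast_le (α := ℝ)).2 (blow_count H v hv A ⌊2 * ρ * n⌋₊)
  push_cast at g3
  set g : ℝ := (⌊2 * ρ * n⌋₊ : ℝ)
  have g0 : 0 ≤ g := le_trans (by positivity) g2
  have g4 : t * (l * g) ≤ δ / 2 * n := by
    have : 2 * ρ * (t * l + 1) = δ / 2 := by rw [hρ, hK]; field_simp
    calc t * (l * g) = (t * l) * g := by ring
      _ ≤ (t * l + 1) * (2 * ρ * n) := by gcongr; linarith
      _ = _ := by rw [← this]; ring
  have g5 : δ / 2 * n ^ s * g ^ l * (n ^ t * n) ≤ copies (H.submatrix id v) A * (n ^ t * n) := by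
    have a1 : δ * n ^ (s + t) * n * g ^ l ≤ copies H A * n * g ^ l := by gcongr
    have a2 : (n : ℝ) ^ s * (t * (l * g) * n ^ t * g ^ l) ≤
        n ^ s * (δ / 2 * n * n ^ t * g ^ l) := by gcongr
    rw [pow_add] at a1
    linarith
  have g6 := le_of_mul_le_mul_right g5 (by positivity)
  refine le_trans ?_ g6
  calc ρ ^ (s + l + 1) * (n : ℝ) ^ (s + l) = ρ ^ s * (ρ * n ^ s * (ρ * n) ^ l) := by
        rw [mul_pow]; ring
    _ ≤ 1 * (δ / 2 * n ^ s * g ^ l) := by gcongr; exact pow_le_one₀ hρ0.le hρ1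
    _ = _ := one_mul _

theorem PolyRemoval.blow {H : Matrix (Fin s) (Fin t) Bool} (h : PolyRemoval H)
    (u : Fin k → Fin s) (v : Fin l → Fin t) (hu : Monotone u) (hus : Function.Surjective u)
    (hv : Monotone v) (hvs : Function.Surjective v) : PolyRemoval (H.submatrix u v) :=
  ((h.blow_col v hv hvs).transpose.blow_col u hu hus).transpose

theorem poly_of_core (H : Matrix (Fin s) (Fin t) Bool) (E C1 C2 : ℕ)
    (h : ∀ (n q : ℕ) (A : Matrix (Fin n) (Fin n) Bool), 0 < q → q ^ 35 ≤ n →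
      C1 * q ^ E * copies H A ≤ n ^ (s + t) → ∃ B, copies H B = 0 ∧ dst A B * q ≤ C2 * n ^ 2) :
    PolyRemoval H := by
  refine ⟨1 / ((C1 + 1) * (C2 + 2) ^ (E + 35 * (s + t) + 1)), (E + 35 * (s + t) + 1 : ℕ),
    by positivity, by positivity, fun n ε A hn h0 hε hF => ?_⟩
  set m := E + 35 * (s + t) + 1 with hm
  set q := ⌈(C2 + 1) / ε⌉₊ with hq
  have q1 : (C2 + 1 : ℝ) ≤ q * ε := (div_le_iff₀ h0).1 (Nat.le_ceil _)
  have q2 : q * ε ≤ C2 + 2 := by
    have g1 : (q : ℝ) < (C2 + 1) / ε + 1 := Nat.ceil_lt_add_one (by positivity)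
    have g2 : (q : ℝ) * ε ≤ ((C2 + 1) / ε + 1) * ε := by gcongr
    rw [add_mul, div_mul_cancel₀ _ h0.ne'] at g2
    linarith
  have q0 : 0 < q := Nat.ceil_pos.2 (by positivity)
  have h1 := one_le_copies hn h0 hF
  have key : n ^ (s + t) ≤ (C1 + 1) * q ^ m * copies H A := by
    by_cases hb : q ^ 35 ≤ n
    · refine le_trans (not_lt.1 fun g => ?_ : n ^ (s + t) ≤ C1 * q ^ E * copies H A)
        (Nat.mul_le_mul_right _ (Nat.mul_le_mul (Nat.le_succ _)
          (Nat.pow_le_pow_right q0 (by omega))))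
      obtain ⟨B, g1, g2⟩ := h n q A q0 hb g.le
      have g3 := hF B g1
      have g4 : (dst A B : ℝ) * q ≤ C2 * n ^ 2 := by exact_mod_cast g2
      have g5 : (0 : ℝ) < (n : ℝ) ^ 2 := by positivity
      have g6 : ε * (n : ℝ) ^ 2 * q ≤ dst A B * q := by gcongr
      nlinarith
    · calc n ^ (s + t) ≤ (q ^ 35) ^ (s + t) := Nat.pow_le_pow_left (by omega) _
        _ ≤ q ^ m := by rw [← pow_mul]; exact Nat.pow_le_pow_right q0 (by omega)
        _ = 1 * q ^ m * 1 := by ring
        _ ≤ _ := Nat.mul_le_mul (Nat.mul_le_mul_right _ (by omega)) h1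
  have key2 : (n : ℝ) ^ (s + t) ≤ (C1 + 1) * q ^ m * copies H A := by exact_mod_cast key
  rw [Real.rpow_natCast, mul_assoc, one_div, inv_mul_le_iff₀ (by positivity)]
  calc ε ^ m * (n : ℝ) ^ (s + t) ≤ ε ^ m * ((C1 + 1) * q ^ m * copies H A) := by gcongr
    _ = (C1 + 1) * (q * ε) ^ m * copies H A := by rw [mul_pow]; ring
    _ ≤ _ := by gcongr

theorem dst_eq_sum (A B : Matrix (Fin n) (Fin n) Bool) :
    dst A B = ∑ r, #{c | A r c ≠ B r c} := by
  unfold dst hammingDist
  rw [card_filter, Fintype.sum_prod_type]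
  simp only [card_filter]
  rfl

/-- Patterns with one row. -/
theorem poly_row (H : Matrix (Fin 1) (Fin (t + 1)) Bool) : PolyRemoval H := by
  refine poly_of_core H (t + 2) 1 (2 * t + 3) fun n q A hq hn h => ?_
  have hn0 : 0 < n := lt_of_lt_of_le (pow_pos hq 35) hn
  set g := un n q 1 with hg
  let cnt : Fin n → ℕ := fun r =>
    #{c : Fin (t + 1) → Fin n | StrictMono c ∧ ∀ j, c j ∈ cols H A (fun _ => r) j}
  have hsum : ∑ r, cnt r ≤ copies H A := by
    rw [copies_eq_sum]
    refine le_of_eq (sum_nbij' (fun r _ => r) (fun r => r 0) (fun r _ => ?_) (fun _ _ => by simp)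
      (fun _ _ => rfl) (fun r _ => funext fun i => congrArg r (Subsingleton.elim _ _))
      (fun _ _ => rfl))
    simpa using Subsingleton.strictMono _
  let R : Finset (Fin n) := {r | g ^ (t + 1) ≤ cnt r}
  have hR : #R * q ≤ n := by
    have g1 : #R * g ^ (t + 1) ≤ copies H A :=
      calc #R * g ^ (t + 1) = ∑ _r ∈ R, g ^ (t + 1) := by simp
        _ ≤ ∑ r ∈ R, cnt r := sum_le_sum fun r hr => (mem_filter.1 hr).2
        _ ≤ _ := (sum_le_sum_of_subset (subset_univ _)).trans hsum
    refine Nat.le_of_mul_le_mul_right (c := n ^ (t + 1)) ?_ (pow_pos hn0 _)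
    calc _ ≤ #R * q * (g * q ^ 1) ^ (t + 1) :=
          Nat.mul_le_mul_left _ (Nat.pow_le_pow_left (un_lb n 1 hq).le _)
      _ = 1 * q ^ (t + 2) * (#R * g ^ (t + 1)) := by ring
      _ ≤ 1 * q ^ (t + 2) * copies H A := Nat.mul_le_mul_left _ g1
      _ ≤ _ := h.trans (le_of_eq (by ring))
  have hrow : ∀ r, ∃ b : Fin n → Bool,
      (∀ c : Fin (t + 1) → Fin n, StrictMono c → ¬ ∀ j, b (c j) = H 0 j) ∧
      #{c | A r c ≠ b c} ≤ (if r ∈ R then n else 0) + (t + 1) * g := by
    intro r
    split_ifs with hr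
    · exact ⟨fun _ => !H 0 0, fun c _ hc => by simpa using hc 0,
        le_add_right ((card_le_univ _).trans (by simp))⟩
    obtain ⟨θ, h0, hm, ⟨j0, hj0⟩, hc⟩ := greedy (cols H A fun _ => r) g
      (by simpa [R, cnt] using hr)
    let Wd : Fin (t + 1) → Finset (Fin n) := fun j =>
      {c ∈ cols H A (fun _ => r) j | θ j ≤ c.val ∧ c.val < θ (j + 1)}
    refine ⟨fun c => if ∃ j, c ∈ Wd j then !A r c else A r c, fun c hc' hb => ?_, ?_⟩
    · have := pass θ h0 c hc'.monotone (fun j hj => by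
        by_contra g1
        have g2 := hb j
        beta_reduce at g2
        by_cases g3 : A r (c j) = H 0 j
        · have g4 : c j ∈ Wd j := mem_filter.2 ⟨mem_filter.2 ⟨mem_univ _, fun i => by
            rw [Subsingleton.elim i 0]; exact g3⟩, hj, not_le.1 g1⟩
          rw [if_pos ⟨j, g4⟩, g3] at g2
          simp at g2
        · split_ifs at g2 with g4
          · obtain ⟨i, g5⟩ := g4
            obtain ⟨g6, g7, g8⟩ := mem_filter.1 g5
            have g9 : i = j := by
              rcases lt_trichotomy i j with g | g | g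
              · have := hm (show i.val + 1 ≤ j.val from g); omega
              · exact g
              · have := hm (show j.val + 1 ≤ i.val from g); omega
            exact g3 (g9 ▸ (mem_filter.1 g6).2 0)
          · exact g3 g2) j0
      have := (c j0).2
      omega
    · rw [zero_add]
      refine le_trans (card_le_card (t := univ.biUnion Wd) fun c hc' => ?_)
        ((card_biUnion_le_card_mul _ _ g fun j _ => hc j).trans (by simp))
      by_contra g1
      refine (mem_filter.1 hc').2 (if_neg fun g2 => g1 ?_).symm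
      simpa using g2
  choose B hB1 hB2 using hrow
  refine ⟨Matrix.of B, copies_eq_zero.2 fun r c _ hc e =>
    hB1 (r 0) c hc fun j => congrFun (congrFun e 0) j, ?_⟩
  have g1 : dst A (Matrix.of B) ≤ #R * n + n * ((t + 1) * g) := by
    rw [dst_eq_sum]
    refine (sum_le_sum fun r _ => hB2 r).trans (le_of_eq ?_)
    simp [sum_add_distrib]
  have g2 := un_ub hq hn (le_refl 1) (by norm_num)
  calc _ ≤ (#R * n + n * ((t + 1) * g)) * q := Nat.mul_le_mul_right _ g1
    _ = n * (#R * q + (t + 1) * (g * q ^ 1)) := by ring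
    _ ≤ n * (n + (t + 1) * (2 * n)) := by gcongr
    _ = _ := by ring

end Vale.Agent.N037T
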