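import Mathlib.Analysis.SpecialFunctions.Pow.Real
import Mathlib.Data.Set.Card
import Mathlib.InformationTheory.Hamming
import Mathlib.LinearAlgebra.Matrix.Defs

/-! Ordered copies of a binary pattern in a binary matrix, and polynomial removal. -/

namespace Vale.Agent.N037T

/-- The number of ordered copies of the `s × t` pattern `H` in the `n × n` matrix `A`: pairs of
strictly increasing row and column maps whose submatrix is `H`. -/
noncomputable def copies {s t n : ℕ} (H : Matrix (Fin s) (Fin t) Bool)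
    (A : Matrix (Fin n) (Fin n) Bool) : ℕ :=
  Set.ncard {p : (Fin s → Fin n) × (Fin t → Fin n) |
    StrictMono p.1 ∧ StrictMono p.2 ∧ A.submatrix p.1 p.2 = H}

/-- `A` is `ε`-far from `H`-free: every `H`-free matrix differs from `A` in at least `ε n ^ 2`
entries. -/
def Far {s t n : ℕ} (ε : ℝ) (H : Matrix (Fin s) (Fin t) Bool)
    (A : Matrix (Fin n) (Fin n) Bool) : Prop :=
  ∀ B : Matrix (Fin n) (Fin n) Bool, copies H B = 0 →
    ε * (n : ℝ) ^ 2 ≤ hammingDist (Function.uncurry A) (Function.uncurry B)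

/-- The pattern `H` has a polynomial removal bound. -/
def PolyRemoval {s t : ℕ} (H : Matrix (Fin s) (Fin t) Bool) : Prop :=
  ∃ c C : ℝ, 0 < c ∧ 0 < C ∧ ∀ (n : ℕ) (ε : ℝ) (A : Matrix (Fin n) (Fin n) Bool),
    1 ≤ n → 0 < ε → ε < 1 → Far ε H A → c * ε ^ C * (n : ℝ) ^ (s + t) ≤ copies H A

end Vale.Agent.N037T
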