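import Vale.Agent.N037T.Frame

/-! The two exact steps: for the pattern with rows `11, 10` and for the identity pattern. -/

namespace Vale.Agent.N037T

open Finset Relation
open scoped symmDiff

variable {n : ℕ}

/-- The rows `X`, `Y` in this order contain no copy of the pattern with rows `11, 10`. -/
def FG (X Y : Finset (Fin n)) : Prop := ∀ c d, c < d → c ∈ X → c ∈ Y → d ∈ X → d ∈ Y

/-- The rows `X`, `Y` in this order contain no copy of the pattern with rows `10, 01`. -/
def FI (X Y : Finset (Fin n)) : Prop := ∀ c d, c < d → c ∈ X → c ∉ Y → d ∈ Y → d ∈ X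

theorem reach_total {β : Type} (r : β → β → Prop)
    (h : ∀ c d d', r c d → r c d' → r d d' ∨ r d' d) {x y z : β}
    (hy : ReflTransGen r x y) (hz : ReflTransGen r x z) :
    ReflTransGen r y z ∨ ReflTransGen r z y := by
  have one : ∀ {x z : β}, ReflTransGen r x z → ∀ y, r x y →
      ReflTransGen r y z ∨ ReflTransGen r z y := by
    intro x z hz
    induction hz using ReflTransGen.head_induction_on with
    | refl => exact fun y hy => Or.inr (ReflTransGen.single hy)
    | head h1 h2 ih =>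
      intro y hy
      rcases h _ _ _ hy h1 with h3 | h3
      · exact Or.inl (ReflTransGen.head h3 h2)
      · exact ih y h3
  induction hy using ReflTransGen.head_induction_on with
  | refl => exact Or.inl hz
  | head h1 h2 ih =>
    rcases one hz _ h1 with h3 | h3
    · exact ih h3
    · exact Or.inr (h3.trans h2)

theorem exact_FG (a : ℕ) : Exact (FG (n := n)) a a := by
  classical
  intro ι I X Y h1 h2 h3 h4
  let T : ι → Finset (Fin n) := fun x => {c ∈ X x | ∃ f ∈ X x, f ∈ Y x ∧ f ≤ c}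
  have hTX : ∀ x, ∀ c ∈ T x, c ∈ X x := fun x c hc => (mem_filter.1 hc).1
  have hup : ∀ x, ∀ c ∈ T x, ∀ d ∈ X x, c ≤ d → d ∈ T x := fun x c hc d hd h => by
    obtain ⟨_, f, g1, g2, g3⟩ := mem_filter.1 hc
    exact mem_filter.2 ⟨hd, f, g1, g2, g3.trans h⟩
  have push : ∀ x y, FG (X x) (X y) → ∀ c d, c ∈ T x → c ∈ T y → d ∈ T x → c ≤ d → d ∈ T y := by
    intro x y hF c d g1 g2 g3 g4
    rcases g4.eq_or_lt with rfl | g5
    · exact g2
    · exact hup y c g2 d (hF c d g5 (hTX _ _ g1) (hTX _ _ g2) (hTX _ _ g3)) g4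
  let St : ℕ → Fin n → Fin n → Prop := fun i c d => c ≤ d ∧ ∃ x, I x = i ∧ c ∈ T x ∧ d ∈ T x
  have clique : ∀ i c d d', St i c d → St i c d' → St i d d' ∨ St i d' d := by
    rintro i c d d' ⟨g1, x, hx, g2, g3⟩ ⟨g4, y, hy, g5, g6⟩
    rcases h2 x y (hx.trans hy.symm) with hF | hF
    · have := push x y hF c d g2 g5 g3 g1
      rcases le_total d d' with h | h
      · exact Or.inl ⟨h, y, hy, this, g6⟩
      · exact Or.inr ⟨h, y, hy, g6, this⟩
    · have := push y x hF c d' g5 g2 g6 g4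
      rcases le_total d d' with h | h
      · exact Or.inl ⟨h, x, hx, g3, this⟩
      · exact Or.inr ⟨h, x, hx, this, g3⟩
  have hle : ∀ i c d, ReflTransGen (St i) c d → c ≤ d := by
    intro i c d h
    induction h with
    | refl => exact le_rfl
    | tail _ g ih => exact ih.trans g.1
  let B : ι → Finset (Fin n) := fun x => {c | ∃ f ∈ T x, ReflTransGen (St (I x)) f c}
  have hB : ∀ x c, c ∈ B x ↔ ∃ f ∈ T x, ReflTransGen (St (I x)) f c := fun x c => by simp [B]
  have comp : ∀ x, ∀ c ∈ B x, ∀ d ∈ B x, c < d → ReflTransGen (St (I x)) c d := by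
    intro x c hc d hd h
    obtain ⟨f, g1, g2⟩ := (hB _ _).1 hc
    obtain ⟨f', g3, g4⟩ := (hB _ _).1 hd
    have : ReflTransGen (St (I x)) c d ∨ ReflTransGen (St (I x)) d c := by
      rcases le_total f f' with h' | h'
      · exact reach_total _ (clique _) g2 (ReflTransGen.head ⟨h', x, rfl, g1, g3⟩ g4)
      · exact reach_total _ (clique _) (ReflTransGen.head ⟨h', x, rfl, g3, g1⟩ g2) g4
    exact this.resolve_right fun g => absurd (hle _ _ _ g) (not_le.2 h)
  have hmem : ∀ y, ∀ c ∈ B y, ∃ y', I y' = I y ∧ c ∈ T y' := by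
    intro y c hc
    obtain ⟨f, g1, g2⟩ := (hB _ _).1 hc
    rcases g2.cases_tail with rfl | ⟨_, _, _, z, g3, _, g4⟩
    · exact ⟨y, rfl, g1⟩
    · exact ⟨z, g3, g4⟩
  have hstep : ∀ y, ∀ c ∈ B y, ∀ d, St (I y) c d → d ∈ B y := by
    intro y c hc d h
    obtain ⟨f, g1, g2⟩ := (hB _ _).1 hc
    exact (hB _ _).2 ⟨f, g1, g2.tail h⟩
  refine ⟨B, ?_, ?_⟩
  · intro x y hxy c d hcd g1 g2 g3
    have key := comp x c g1 d g3 hcd
    clear g3 hcd
    induction key with
    | refl => exact g2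
    | tail _ g ih =>
      rcases hxy.eq_or_lt with h | h
      · exact hstep y _ ih _ (h ▸ g)
      · obtain ⟨g4, z, g5, g6, g7⟩ := g
        obtain ⟨y', g8, g9⟩ := hmem y _ ih
        exact hstep y _ ih _ ⟨g4, y', g8, g9,
          push z y' (h1 z y' (by rw [g5, g8]; exact h)) _ _ g6 g9 g7 g4⟩
  · intro x
    refine le_trans (card_le_card fun c hc => ?_) (h4 x)
    rw [mem_symmDiff] at hc ⊢
    rcases hc with ⟨g1, g2⟩ | ⟨g1, g2⟩
    · exact Or.inl ⟨g1, fun g3 => g2 ((hB _ _).2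
        ⟨c, mem_filter.2 ⟨g1, c, g1, g3, le_rfl⟩, ReflTransGen.refl⟩)⟩
    · refine Or.inr ⟨?_, g2⟩
      obtain ⟨f, g3, g4⟩ := (hB _ _).1 g1
      clear g1 g2
      induction g4 with
      | refl =>
        obtain ⟨g5, f', g6, g7, g8⟩ := mem_filter.1 g3
        rcases g8.eq_or_lt with rfl | g9
        · exact g7
        · exact h3 x x rfl f' f g9 g6 g7 g5
      | tail _ g ih =>
        obtain ⟨g5, z, g6, g7, g8⟩ := g
        rcases g5.eq_or_lt with g9 | g9
        · exact g9 ▸ ih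
        · exact h3 z x g6 _ _ g9 (hTX _ _ g7) ih (hTX _ _ g8)

theorem nested {X Y X' Y' : Finset (Fin n)} {a : ℕ} (h1 : FI X Y') (h2 : FI X' Y)
    (h3 : #(X ∆ Y) ≤ a) (h4 : #(X' ∆ Y') ≤ a) : #(X \ X') ≤ 2 * a ∨ #(X' \ X) ≤ 2 * a := by
  have key : (∀ p, p ∈ X → p ∈ Y → p ∉ X' → p ∈ Y') ∨ ∀ q, q ∈ X' → q ∈ Y' → q ∉ X → q ∈ Y := by
    by_contra h
    push Not at h
    obtain ⟨⟨p, p1, p2, p3, p4⟩, q, q1, q2, q3, q4⟩ := h
    rcases lt_trichotomy p q with h | h | h
    · exact q3 (h1 p q h p1 p4 q2)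
    · exact q3 (h ▸ p1)
    · exact p3 (h2 q p h q1 q4 p2)
  rcases key with h | h
  · left
    refine le_trans (card_le_card (t := X ∆ Y ∪ X' ∆ Y') fun c hc => ?_)
      ((card_union_le _ _).trans (by omega))
    have := h c
    simp only [mem_union, mem_symmDiff, mem_sdiff] at hc ⊢
    tauto
  · right
    refine le_trans (card_le_card (t := X ∆ Y ∪ X' ∆ Y') fun c hc => ?_)
      ((card_union_le _ _).trans (by omega))
    have := h c
    simp only [mem_union, mem_symmDiff, mem_sdiff] at hc ⊢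
    tauto

theorem card_sdiff_swap (X Y : Finset (Fin n)) : #(X \ Y) + #Y = #(Y \ X) + #X := by
  have h1 := card_sdiff_add_card_inter X Y
  have h2 := card_sdiff_add_card_inter Y X
  rw [inter_comm] at h2
  omega

theorem exact_FI (a h L : ℕ) (hh : 0 < h) (hL : n / h ≤ L) :
    Exact (FI (n := n)) a ((L + 2) * (2 * a) + 2 * h) := by
  classical
  intro ι I X Y h1 _ h3 h4
  rcases isEmpty_or_nonempty ι with hι | hι
  · exact ⟨X, fun x => isEmptyElim x, fun x => isEmptyElim x⟩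
  have nest : ∀ x y, I x = I y → #(X x \ X y) ≤ 2 * a ∨ #(X y \ X x) ≤ 2 * a :=
    fun x y hxy => nested (h3 x y hxy) (h3 y x hxy.symm) (h4 x) (h4 y)
  let key : ι → ℕ × ℕ := fun x => (I x, #(X x) / h)
  let σ : ℕ × ℕ → ι := Function.invFun key
  let U : ℕ → ℕ → Finset (Fin n) := fun i l => if key (σ (i, l)) = (i, l) then X (σ (i, l)) else ∅
  have hU : ∀ i l c, c ∈ U i l → I (σ (i, l)) = i ∧ #(X (σ (i, l))) / h = l ∧ U i l = X (σ (i, l)) := by
    intro i l c hc
    simp only [U] at hc ⊢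
    split_ifs at hc ⊢ with g
    · exact ⟨congrArg Prod.fst g, congrArg Prod.snd g, rfl⟩
    · simp at hc
  let B : ι → Finset (Fin n) := fun x => (range (#(X x) / h + 1)).biUnion (U (I x))
  have hB : ∀ x c, c ∈ B x ↔ ∃ l ≤ #(X x) / h, c ∈ U (I x) l := fun x c => by
    simp [B]
  refine ⟨B, ?_, ?_⟩
  · intro x y hxy c d hcd g1 g2 g3
    obtain ⟨l, g4, g5⟩ := (hB _ _).1 g1
    obtain ⟨l', g6, g7⟩ := (hB _ _).1 g3
    rcases hxy.eq_or_lt with g | g
    · refine (hB _ _).2 ⟨l', ?_, g ▸ g7⟩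
      by_contra g8
      exact g2 ((hB _ _).2 ⟨l, by omega, g ▸ g5⟩)
    · obtain ⟨u1, _, u3⟩ := hU _ _ _ g5
      obtain ⟨v1, _, v3⟩ := hU _ _ _ g7
      refine (hB _ _).2 ⟨l, g4, ?_⟩
      rw [u3]
      refine h1 _ (σ (I y, l')) (by rw [u1, v1]; exact g) c d hcd (u3 ▸ g5) (fun g8 => ?_) (v3 ▸ g7)
      exact g2 ((hB _ _).2 ⟨l', g6, v3 ▸ g8⟩)
  · intro x
    have hk : key (σ (I x, #(X x) / h)) = (I x, #(X x) / h) := Function.invFun_eq ⟨x, rfl⟩
    have hlev : #(X x) / h ≤ L :=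
      (Nat.div_le_div_right (by simpa using card_le_univ (X x))).trans hL
    have same : ∀ y, I y = I x → #(X y) / h = #(X x) / h →
        #(X x \ X y) ≤ 2 * a + h ∧ #(X y \ X x) ≤ 2 * a + h := by
      intro y g1 g2
      have e1 := card_sdiff_swap (X x) (X y)
      have e2 := Nat.div_add_mod #(X x) h
      have e3 := Nat.div_add_mod #(X y) h
      have e4 := Nat.mod_lt #(X x) hh
      have e5 := Nat.mod_lt #(X y) hh
      rw [g2] at e3
      rcases nest x y g1.symm with g | g <;> omega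
    have low : ∀ l < #(X x) / h, #(U (I x) l \ X x) ≤ 2 * a := by
      intro l hl
      rcases (U (I x) l).eq_empty_or_nonempty with g | ⟨c, hc⟩
      · simp [g]
      obtain ⟨u1, u2, u3⟩ := hU _ _ _ hc
      rw [u3]
      have e1 := card_sdiff_swap (X x) (X (σ (I x, l)))
      have e2 : #(X (σ (I x, l))) ≤ #(X x) := by
        by_contra g
        have := Nat.div_le_div_right (c := h) (not_le.1 g).le
        omega
      rcases nest x _ u1.symm with g | g <;> omega
    have hUx : U (I x) (#(X x) / h) = X (σ (I x, #(X x) / h)) := if_pos hk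
    obtain ⟨s1, s2⟩ := same _ (congrArg Prod.fst hk) (congrArg Prod.snd hk)
    have hsub : X x ∆ B x ⊆ (X x \ X (σ (I x, #(X x) / h))) ∪ (X (σ (I x, #(X x) / h)) \ X x) ∪
        (range (#(X x) / h)).biUnion fun l => U (I x) l \ X x := by
      intro c hc
      rw [mem_symmDiff] at hc
      rcases hc with ⟨g1, g2⟩ | ⟨g1, g2⟩
      · exact mem_union_left _ (mem_union_left _ (mem_sdiff.2
          ⟨g1, fun g3 => g2 ((hB _ _).2 ⟨_, le_rfl, hUx ▸ g3⟩)⟩))
      · obtain ⟨l, g3, g4⟩ := (hB _ _).1 g1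
        rcases g3.eq_or_lt with g5 | g5
        · rw [g5, hUx] at g4
          exact mem_union_left _ (mem_union_right _ (mem_sdiff.2 ⟨g4, g2⟩))
        · exact mem_union_right _ (mem_biUnion.2 ⟨l, mem_range.2 g5, mem_sdiff.2 ⟨g4, g2⟩⟩)
    have e1 : #((range (#(X x) / h)).biUnion fun l => U (I x) l \ X x) ≤ L * (2 * a) :=
      (card_biUnion_le_card_mul _ _ _ fun l hl => low l (mem_range.1 hl)).trans
        (Nat.mul_le_mul_right _ (by simpa using hlev))
    have e2 := (card_le_card hsub).trans ((card_union_le _ _).trans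
      (add_le_add (card_union_le _ _) e1))
    have e3 : (L + 2) * (2 * a) = L * (2 * a) + 4 * a := by ring
    omega

end Vale.Agent.N037T
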