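import Mathlib.Tactic
import Mathlib.Data.Finset.SymmDiff

/-! A common frame for removal of patterns with two rows: rows are finite sets of columns. -/

namespace Vale.Agent.N037T

open Finset
open scoped symmDiff

variable {n : ℕ}

/-- Greedy choice of pairwise unrelated representatives. -/
theorem pick {ι V : Type} [DecidableEq ι] [DecidableEq V] [Fintype V] [Nonempty V]
    (bad : V → V → Prop) [DecidableRel bad] (hs : ∀ u v, bad u v → bad v u) (D N : ℕ)
    (C : ι → Finset V) (T : Finset ι) (hN : #T ≤ N)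
    (hD : ∀ x ∈ T, ∀ v ∈ C x, #{u | bad v u} ≤ D) (hC : ∀ x ∈ T, N * D < #(C x)) :
    ∃ f : ι → V, (∀ x ∈ T, f x ∈ C x) ∧ ∀ x ∈ T, ∀ y ∈ T, x ≠ y → ¬ bad (f x) (f y) := by
  induction T using Finset.induction_on with
  | empty => exact ⟨fun _ => Classical.arbitrary V, by simp, by simp⟩
  | insert x T hx ih =>
    rw [card_insert_of_notMem hx] at hN
    obtain ⟨f, hf, hb⟩ := ih (by omega) (fun y hy => hD y (mem_insert_of_mem hy))
      (fun y hy => hC y (mem_insert_of_mem hy))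
    have h1 : #(T.biUnion fun y => ({u | bad (f y) u} : Finset V)) ≤ N * D := by
      refine (card_biUnion_le_card_mul _ _ D fun y hy => ?_).trans
        (Nat.mul_le_mul_right _ (by omega))
      exact hD y (mem_insert_of_mem hy) _ (hf y hy)
    obtain ⟨v, hv, hv'⟩ := exists_mem_notMem_of_card_lt_card
      (h1.trans_lt (hC x (mem_insert_self _ _)))
    have hv2 : ∀ y ∈ T, ¬ bad (f y) v := fun y hy h =>
      hv' (mem_biUnion.2 ⟨y, hy, by simpa using h⟩)
    have hu : ∀ y ∈ T, Function.update f x v y = f y := fun y hy =>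
      Function.update_of_ne (fun h : y = x => hx (h ▸ hy)) _ _
    refine ⟨Function.update f x v, ?_, ?_⟩
    · intro y hy
      rcases mem_insert.1 hy with rfl | hy
      · simpa using hv
      · rw [hu y hy]; exact hf y hy
    · intro y hy z hz hyz
      by_cases h1 : y = x
      · have hz' : z ∈ T := (mem_insert.1 hz).resolve_left fun h => hyz (h1.trans h.symm)
        rw [hu z hz', h1, Function.update_self]; exact fun h => hv2 z hz' (hs _ _ h)
      · have hy' : y ∈ T := (mem_insert.1 hy).resolve_left h1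
        by_cases h2 : z = x
        · rw [hu y hy', h2, Function.update_self]; exact hv2 y hy'
        · have hz' : z ∈ T := (mem_insert.1 hz).resolve_left h2
          rw [hu y hy', hu z hz']; exact hb y hy' z hz' hyz

/-- Few vertices have a large degree. -/
theorem high (E : Finset (Fin n × Fin n)) (D y : ℕ) (hy : 2 * #E ≤ y * D) :
    #{r : Fin n | D < #{s : Fin n | (r, s) ∈ E ∨ (s, r) ∈ E}} ≤ y := by
  have h1 : ∀ r : Fin n, #{s : Fin n | (r, s) ∈ E ∨ (s, r) ∈ E} ≤
      #{p ∈ E | p.1 = r} + #{p ∈ E | p.2 = r} := by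
    intro r
    rw [filter_or]
    refine (card_union_le _ _).trans (add_le_add ?_ ?_)
    · exact card_le_card_of_injOn (fun s => (r, s)) (fun s hs => by simpa using hs)
        (fun s _ t _ h => by simpa using h)
    · exact card_le_card_of_injOn (fun s => (s, r)) (fun s hs => by simpa using hs)
        (fun s _ t _ h => by simpa using h)
  have h2 : ∑ r : Fin n, #{p ∈ E | p.1 = r} = #E :=
    (card_eq_sum_card_fiberwise (fun p _ => mem_univ p.1)).symm
  have h3 : ∑ r : Fin n, #{p ∈ E | p.2 = r} = #E :=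
    (card_eq_sum_card_fiberwise (fun p _ => mem_univ p.2)).symm
  set H : Finset (Fin n) := {r : Fin n | D < #{s : Fin n | (r, s) ∈ E ∨ (s, r) ∈ E}} with hH
  have h4 : #H * (D + 1) ≤ 2 * #E := by
    calc #H * (D + 1) = ∑ _r ∈ H, (D + 1) := by simp
      _ ≤ ∑ r ∈ H, (#{p ∈ E | p.1 = r} + #{p ∈ E | p.2 = r}) :=
        sum_le_sum fun r hr => le_trans (by simpa [hH] using hr) (h1 r)
      _ ≤ ∑ r : Fin n, (#{p ∈ E | p.1 = r} + #{p ∈ E | p.2 = r}) :=
        sum_le_sum_of_subset (subset_univ _)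
      _ = 2 * #E := by rw [sum_add_distrib, h2, h3]; ring
  by_contra h
  push Not at h
  nlinarith

theorem card_block (w i : ℕ) (hw : 0 < w) : #{s : Fin n | s.val / w = i} ≤ w := by
  have := card_le_card_of_injOn (s := ({s : Fin n | s.val / w = i} : Finset (Fin n)))
    (t := range w) (fun s => s.val % w) (fun s _ => by simpa using Nat.mod_lt _ hw)
    (fun s hs t ht h => by
      simp only [coe_filter, mem_univ, true_and, Set.mem_ofPred_eq] at hs ht
      apply Fin.ext
      have h' : s.val % w = t.val % w := h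
      rw [← Nat.div_add_mod s.val w, ← Nat.div_add_mod t.val w, hs, ht, h'])
  simpa using this

/-- Rows with few later rows in the same set lie in one block or are few. -/
theorem card_last (U : Finset (Fin n)) (w m : ℕ) (hw : 0 < w) :
    #{r ∈ U | #{s ∈ U | r.val / w < s.val / w} ≤ m} ≤ w + m := by
  set V := {r ∈ U | #{s ∈ U | r.val / w < s.val / w} ≤ m} with hV
  rcases V.eq_empty_or_nonempty with h | h
  · simp [h]
  obtain ⟨r, hr, hmin⟩ := V.exists_min_image id h
  have hsub : V ⊆ ({s : Fin n | s.val / w = r.val / w} : Finset (Fin n)) ∪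
      {s ∈ U | r.val / w < s.val / w} := by
    intro s hs
    have h1 : r.val / w ≤ s.val / w := Nat.div_le_div_right (hmin s hs)
    rcases h1.eq_or_lt with h2 | h2
    · exact mem_union_left _ (by simpa using h2.symm)
    · exact mem_union_right _ (mem_filter.2 ⟨(mem_filter.1 hs).1, h2⟩)
  exact (card_le_card hsub).trans ((card_union_le _ _).trans
    (add_le_add (card_block w _ hw) (mem_filter.1 hr).2))

/-- An exactly free family of representatives with later twins can be moved a little so that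
it becomes free in both orders inside every block. -/
def Exact (F : Finset (Fin n) → Finset (Fin n) → Prop) (a e : ℕ) : Prop :=
  ∀ (ι : Type) (I : ι → ℕ) (X Y : ι → Finset (Fin n)),
    (∀ x y, I x < I y → F (X x) (X y)) → (∀ x y, I x = I y → F (X x) (X y) ∨ F (X y) (X x)) →
    (∀ x y, I x = I y → F (X x) (Y y)) → (∀ x, #(X x ∆ Y x) ≤ a) →
    ∃ B : ι → Finset (Fin n), (∀ x y, I x ≤ I y → F (B x) (B y)) ∧ ∀ x, #(X x ∆ B x) ≤ e

theorem card_sd_tri (X Y Z : Finset (Fin n)) : #(X ∆ Z) ≤ #(X ∆ Y) + #(Y ∆ Z) :=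
  (card_le_card (symmDiff_triangle X Y Z)).trans (card_union_le _ _)

theorem card_sd_sdiff (X Z : Finset (Fin n)) : #(X ∆ (X \ Z)) ≤ #Z :=
  card_le_card fun c hc => by
    simp only [mem_symmDiff, mem_sdiff] at hc
    tauto

theorem card_sd_sdiff2 (X Y Z : Finset (Fin n)) : #((X \ Z) ∆ (Y \ Z)) ≤ #(X ∆ Y) :=
  card_le_card fun c hc => by
    simp only [mem_symmDiff, mem_sdiff] at hc ⊢
    tauto

theorem frame {α : Type} [DecidableEq α] (hn : 0 < n)
    (F : Finset (Fin n) → Finset (Fin n) → Prop) (hF0 : ∀ Y, F ∅ Y) (hF1 : ∀ X, F X ∅)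
    (hFr : ∀ X, F X X) (S : Fin n → Finset (Fin n)) (E : Finset (Fin n × Fin n))
    (W : Finset (Fin n)) (τ : Fin n → α) (T : Finset α) (hT : ∀ r ∈ W, τ r ∈ T)
    (a b e D w y K : ℕ) (hw : 0 < w) (hK : (n / w + 1) * #T ≤ K) (hy : 2 * #E ≤ y * D)
    (hex : Exact F a e)
    (hclose : ∀ r ∈ W, ∀ s ∈ W, r < s → τ r = τ s → (r, s) ∉ E → #(S r ∆ S s) ≤ a)
    (hkill : ∀ r s, r < s → (r, s) ∉ E →
      ∃ Z : Finset (Fin n), #Z ≤ b ∧ ∀ Z', Z ⊆ Z' → F (S r \ Z') (S s \ Z')) :
    ∃ (B : Fin n → Finset (Fin n)) (R : Finset (Fin n)), (∀ r s, r < s → F (B r) (B s)) ∧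
      (∀ r ∉ R, #(S r ∆ B r) ≤ a + 4 * K ^ 2 * b + e) ∧
      #R ≤ #Wᶜ + y + #T * w + 5 * K ^ 2 * D := by
  classical
  have : Nonempty (Fin n) := ⟨⟨0, hn⟩⟩
  let bad : Fin n → Fin n → Prop := fun r s => (r, s) ∈ E ∨ (s, r) ∈ E
  have hs : ∀ u v, bad u v → bad v u := fun u v h => h.symm
  let Hi : Finset (Fin n) := {r : Fin n | D < #{s : Fin n | (r, s) ∈ E ∨ (s, r) ∈ E}}
  have hHi : #Hi ≤ y := high E D y hy
  let V : Finset (Fin n) := W \ Hi
  have hVW : ∀ r ∈ V, r ∈ W := fun r hr => (mem_sdiff.1 hr).1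
  have hVD : ∀ r ∈ V, #{s | bad r s} ≤ D := fun r hr => by
    have := (mem_sdiff.1 hr).2
    simpa [Hi, bad] using this
  let C0 : ℕ × α → Finset (Fin n) := fun x => {r ∈ V | (r.val / w, τ r) = x}
  let C1 : ℕ × α → Finset (Fin n) := fun x => {s ∈ {s ∈ V | τ s = x.2} | x.1 < s.val / w}
  let G : Finset (ℕ × α) := range (n / w + 1) ×ˢ T
  have hG : #G ≤ K := by simpa [G] using hK
  have hTK : #T ≤ K := le_trans (Nat.le_mul_of_pos_left _ (Nat.succ_pos _)) hK
  have hGm : ∀ r ∈ W, (r.val / w, τ r) ∈ G := fun r hr => by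
    simp only [G, mem_product, mem_range]
    exact ⟨Nat.lt_succ_of_le (Nat.div_le_div_right r.2.le), hT r hr⟩
  let P : Finset (ℕ × α) := {x ∈ G | 2 * K * D < #(C0 x) ∧ 2 * K * D < #(C1 x)}
  have hP : #P ≤ K := (card_filter_le _ _).trans hG
  let C : (ℕ × α) × Bool → Finset (Fin n) := fun z => if z.2 then C1 z.1 else C0 z.1
  have hPB : #(P ×ˢ (univ : Finset Bool)) ≤ 2 * K := by
    simp only [card_product, card_univ, Fintype.card_bool]; omega
  obtain ⟨f, hf, hfb⟩ := pick bad hs D (2 * K) C (P ×ˢ (univ : Finset Bool)) hPB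
    (fun z _ v hv => hVD v (by
      simp only [C] at hv
      split_ifs at hv
      · exact (mem_filter.1 (mem_filter.1 hv).1).1
      · exact (mem_filter.1 hv).1))
    (fun z hz => by
      have := (mem_filter.1 (mem_product.1 hz).1).2
      simp only [C]
      split_ifs
      · exact this.2
      · exact this.1)
  have hf0 : ∀ x ∈ P, f (x, false) ∈ V ∧ (f (x, false)).val / w = x.1 ∧ τ (f (x, false)) = x.2 := by
    intro x hx
    have := hf (x, false) (by simpa using hx)
    simp only [C, C0, Bool.false_eq_true, if_false, mem_filter, Prod.ext_iff] at this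
    exact this
  have hf1 : ∀ x ∈ P, f (x, true) ∈ V ∧ x.1 < (f (x, true)).val / w ∧ τ (f (x, true)) = x.2 := by
    intro x hx
    have := hf (x, true) (by simpa using hx)
    simp only [C, C1, if_true, mem_filter] at this
    exact ⟨this.1.1, this.2, this.1.2⟩
  have hlt : ∀ r s : Fin n, r.val / w < s.val / w → r < s := fun r s h => by
    by_contra h'
    exact absurd (Nat.div_le_div_right (c := w) (show s.val ≤ r.val from not_lt.1 h')) (not_le.2 h)
  -- the killed columns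
  have hk2 : ∀ p : Fin n × Fin n, ∃ Z : Finset (Fin n), #Z ≤ b ∧
      (p.1 < p.2 → p ∉ E → ∀ Z', Z ⊆ Z' → F (S p.1 \ Z') (S p.2 \ Z')) := by
    intro p
    by_cases h : p.1 < p.2 ∧ p ∉ E
    · obtain ⟨Z, h1, h2⟩ := hkill p.1 p.2 h.1 h.2
      exact ⟨Z, h1, fun _ _ => h2⟩
    · exact ⟨∅, by simp, fun h1 h2 => absurd ⟨h1, h2⟩ h⟩
  choose z hz1 hz2 using hk2
  let Q := (P ×ˢ (univ : Finset Bool)) ×ˢ (P ×ˢ (univ : Finset Bool))
  let Z : Finset (Fin n) := Q.biUnion fun p => z (f p.1, f p.2)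
  have hZ : #Z ≤ 4 * K ^ 2 * b := by
    refine (card_biUnion_le_card_mul _ _ b fun p _ => hz1 _).trans (Nat.mul_le_mul_right _ ?_)
    simp only [Q]
    rw [card_product]
    calc _ ≤ (2 * K) * (2 * K) := Nat.mul_le_mul hPB hPB
      _ = 4 * K ^ 2 := by ring
  have hfree : ∀ x ∈ P, ∀ y ∈ P, ∀ i j : Bool, f (x, i) < f (y, j) →
      F (S (f (x, i)) \ Z) (S (f (y, j)) \ Z) := by
    intro x hx y hy i j h
    have hne : (x, i) ≠ (y, j) := fun h' => by rw [h'] at h; exact lt_irrefl _ h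
    have h1 := hfb (x, i) (by simpa using hx) (y, j) (by simpa using hy) hne
    refine hz2 (f (x, i), f (y, j)) h (fun h2 => h1 (Or.inl h2)) Z ?_
    exact subset_biUnion_of_mem (fun p => z (f p.1, f p.2))
      (show ((x, i), (y, j)) ∈ Q by simp [Q, hx, hy])
  have hcl : ∀ r ∈ W, ∀ s ∈ W, τ r = τ s → ¬ bad r s → #(S r ∆ S s) ≤ a := by
    intro r hr s hs' ht hb
    rcases lt_trichotomy r s with h | h | h
    · exact hclose r hr s hs' h ht fun h2 => hb (Or.inl h2)
    · subst h; simp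
    · rw [symmDiff_comm]; exact hclose s hs' r hr h ht.symm fun h2 => hb (Or.inr h2)
  obtain ⟨B, hB1, hB2⟩ := hex {x // x ∈ P} (fun x => x.1.1) (fun x => S (f (x.1, false)) \ Z)
    (fun x => S (f (x.1, true)) \ Z)
    (fun x y h => hfree _ x.2 _ y.2 _ _ (hlt _ _ (by
      rw [(hf0 _ x.2).2.1, (hf0 _ y.2).2.1]; exact h)))
    (fun x y _ => by
      rcases lt_trichotomy (f (x.1, false)) (f (y.1, false)) with h | h | h
      · exact Or.inl (hfree _ x.2 _ y.2 _ _ h)
      · left; rw [h]; exact hFr _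
      · exact Or.inr (hfree _ y.2 _ x.2 _ _ h))
    (fun x y h => hfree _ x.2 _ y.2 _ _ (hlt _ _ (by
      rw [(hf0 _ x.2).2.1]; exact lt_of_eq_of_lt h (hf1 _ y.2).2.1)))
    (fun x => (card_sd_sdiff2 _ _ _).trans (hcl _ (hVW _ (hf0 _ x.2).1) _ (hVW _ (hf1 _ x.2).1)
      ((hf0 _ x.2).2.2.trans (hf1 _ x.2).2.2.symm)
      (hfb _ (by simp) _ (by simp) (by simp))))
  let R1 : Finset (Fin n) := {r ∈ V | #(C0 (r.val / w, τ r)) ≤ 2 * K * D}
  let R2 : Finset (Fin n) := {r ∈ V | #(C1 (r.val / w, τ r)) ≤ 2 * K * D}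
  let R3 : Finset (Fin n) := P.biUnion fun x => {u | bad (f (x, false)) u}
  have hR1 : #R1 ≤ 2 * K * D * K := by
    refine (card_le_mul_card_image_of_maps_to (f := fun r : Fin n => (r.val / w, τ r)) (t := G)
      (fun r hr => hGm r (hVW r (mem_filter.1 hr).1)) (2 * K * D) fun x _ => ?_).trans
      (Nat.mul_le_mul_left _ hG)
    rcases ({r ∈ R1 | (r.val / w, τ r) = x} : Finset (Fin n)).eq_empty_or_nonempty with h | ⟨r, hr⟩
    · rw [h]; simp
    · obtain ⟨h1, h2⟩ := mem_filter.1 hr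
      refine le_trans (card_le_card fun s hs' => ?_) (mem_filter.1 h1).2
      obtain ⟨h3, h4⟩ := mem_filter.1 hs'
      exact mem_filter.2 ⟨(mem_filter.1 h3).1, h4.trans h2.symm⟩
  have hR2 : #R2 ≤ (w + 2 * K * D) * #T := by
    refine card_le_mul_card_image_of_maps_to (f := τ) (t := T)
      (fun r hr => hT r (hVW r (mem_filter.1 hr).1)) _ fun t _ => ?_
    refine le_trans (card_le_card fun r hr => ?_) (card_last {s ∈ V | τ s = t} w (2 * K * D) hw)
    obtain ⟨h1, h2⟩ := mem_filter.1 hr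
    obtain ⟨h3, h4⟩ := mem_filter.1 h1
    refine mem_filter.2 ⟨mem_filter.2 ⟨h3, h2⟩, ?_⟩
    subst h2
    exact h4
  have hR3 : #R3 ≤ K * D :=
    (card_biUnion_le_card_mul _ _ D fun x hx => hVD _ (hf0 x hx).1).trans
      (Nat.mul_le_mul_right _ hP)
  refine ⟨fun r => if h : (r.val / w, τ r) ∈ P then B ⟨_, h⟩ else ∅,
    Wᶜ ∪ Hi ∪ R1 ∪ R2 ∪ R3, ?_, ?_, ?_⟩
  · intro r s h
    simp only
    split_ifs with h1 h2
    · exact hB1 _ _ (Nat.div_le_div_right (show r.val ≤ s.val from h.le))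
    · exact hF1 _
    · exact hF0 _
    · exact hF0 _
  · intro r hr
    simp only [mem_union, not_or, mem_compl, not_not] at hr
    obtain ⟨⟨⟨⟨h1, h2⟩, h3⟩, h4⟩, h5⟩ := hr
    have hV : r ∈ V := mem_sdiff.2 ⟨h1, h2⟩
    have hx : (r.val / w, τ r) ∈ P := mem_filter.2 ⟨hGm r h1,
      not_le.1 fun h => h3 (mem_filter.2 ⟨hV, h⟩), not_le.1 fun h => h4 (mem_filter.2 ⟨hV, h⟩)⟩
    simp only [dif_pos hx]
    have h6 : ¬ bad r (f ((r.val / w, τ r), false)) := fun h =>
      h5 (mem_biUnion.2 ⟨_, hx, by simpa using hs _ _ h⟩)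
    have h7 := hcl r h1 _ (hVW _ (hf0 _ hx).1) (hf0 _ hx).2.2.symm h6
    have h8 := card_sd_sdiff (S (f ((r.val / w, τ r), false))) Z
    have h9 := hB2 ⟨_, hx⟩
    have h10 := card_sd_tri (S r) (S (f ((r.val / w, τ r), false))) (B ⟨_, hx⟩)
    have h11 := card_sd_tri (S (f ((r.val / w, τ r), false)))
      (S (f ((r.val / w, τ r), false)) \ Z) (B ⟨_, hx⟩)
    simp only at h9
    omega
  · have h1 := card_union_le (Wᶜ ∪ Hi ∪ R1 ∪ R2) R3
    have h2 := card_union_le (Wᶜ ∪ Hi ∪ R1) R2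
    have h3 := card_union_le (Wᶜ ∪ Hi) R1
    have h4 := card_union_le Wᶜ Hi
    have h5 : 2 * K * D * #T ≤ 2 * K * D * K := Nat.mul_le_mul_left _ hTK
    have h6 : K * D ≤ K * K * D := Nat.mul_le_mul_right _ (Nat.le_mul_self K)
    nlinarith

end Vale.Agent.N037T
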