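import Vale.Agent.N037T.Basic
import Vale.Agent.P037.Bdl.B1

/-! All patterns of size two, block patterns, and the link with the hard pattern. -/

namespace Vale.Agent.N037T

open Finset Matrix
open scoped symmDiff

variable {n : ℕ}

theorem sm2 {a b : Fin n} (h : a < b) : StrictMono ![a, b] :=
  Fin.strictMono_iff_lt_succ.2 fun i => by fin_cases i; exact h

theorem poly_two (H : Matrix (Fin 2) (Fin 2) Bool)
    (U V : ∀ n, Finset (Fin n) → Finset (Fin n) → Finset (Fin n))
    (F : ∀ n, Finset (Fin n) → Finset (Fin n) → Prop)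
    (hU : ∀ n X Y c, c ∈ U n X Y ↔ decide (c ∈ X) = H 0 0 ∧ decide (c ∈ Y) = H 1 0)
    (hV : ∀ n X Y c, c ∈ V n X Y ↔ decide (c ∈ X) = H 0 1 ∧ decide (c ∈ Y) = H 1 1)
    (hF : ∀ n X Y, F n X Y → ∀ c d, c < d → c ∈ U n X Y → d ∉ V n X Y)
    (h : ∀ n q, 0 < q → q ^ 35 ≤ n → ∀ S : Fin n → Finset (Fin n),
      4 * q ^ 106 * #(quad (U n) (V n) S) ≤ n ^ 4 →
      ∃ B : Fin n → Finset (Fin n), (∀ r s, r < s → F n (B r) (B s)) ∧
        (∑ r, #(S r ∆ B r)) * q ≤ 2000 * n ^ 2) : PolyRemoval H := by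
  refine poly_of_core H 106 4 2000 fun n q A hq hn hc => ?_
  let S : Fin n → Finset (Fin n) := fun r => {c | A r c = true}
  have hS : ∀ r c, decide (c ∈ S r) = A r c := fun r c => by simp [S]
  have h1 : #(quad (U n) (V n) S) ≤ copies H A := by
    rw [← Set.ncard_coe_finset]
    refine Set.ncard_le_ncard_of_injOn (fun z => (![z.1.1, z.1.2], ![z.2.1, z.2.2]))
      (fun z hz => ?_) (fun z _ z' _ e => ?_) (Set.toFinite _)
    · obtain ⟨-, g1, g2, g3, g4⟩ := mem_filter.1 (mem_coe.1 hz)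
      rw [hU, hS, hS] at g3
      rw [hV, hS, hS] at g4
      refine ⟨sm2 g1, sm2 g2, ?_⟩
      ext i j
      fin_cases i <;> fin_cases j
      exacts [g3.1, g4.1, g3.2, g4.2]
    · simp only [Prod.mk.injEq] at e
      exact Prod.ext (Prod.ext (congrFun e.1 0) (congrFun e.1 1))
        (Prod.ext (congrFun e.2 0) (congrFun e.2 1))
  obtain ⟨B, g1, g2⟩ := h n q hq hn S ((Nat.mul_le_mul_left _ h1).trans hc)
  refine ⟨Matrix.of fun r c => decide (c ∈ B r), copies_eq_zero.2 fun r c hr hc e => ?_, ?_⟩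
  · have e' : ∀ i j, decide (c j ∈ B (r i)) = H i j := fun i j => congrFun (congrFun e i) j
    exact hF n _ _ (g1 (r 0) (r 1) (hr (by decide))) (c 0) (c 1) (hc (by decide))
      ((hU _ _ _ _).2 ⟨e' 0 0, e' 1 0⟩) ((hV _ _ _ _).2 ⟨e' 0 1, e' 1 1⟩)
  · rw [dst_eq_sum]
    refine le_trans (le_of_eq ?_) g2
    congr 1
    refine sum_congr rfl fun r _ => congrArg card ?_
    ext c
    rw [mem_filter]
    cases hA : A r c <;> simp [S, mem_symmDiff, hA]

theorem poly_G : PolyRemoval !![true, true; true, false] :=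
  poly_two _ (fun _ X Y => X ∩ Y) (fun _ X Y => X \ Y) (fun _ => FG) (fun _ _ _ _ => by simp)
    (fun _ _ _ _ => by simp)
    (fun _ _ _ h c d hcd h1 h2 => (mem_sdiff.1 h2).2
      (h c d hcd (mem_inter.1 h1).1 (mem_inter.1 h1).2 (mem_sdiff.1 h2).1))
    fun _ _ hq hn S h => main_FG hq hn S h

theorem poly_I : PolyRemoval !![true, false; false, true] :=
  poly_two _ (fun _ X Y => X \ Y) (fun _ X Y => Y \ X) (fun _ => FI) (fun _ _ _ _ => by simp)
    (fun _ _ _ _ => by simp [and_comm])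
    (fun _ _ _ h c d hcd h1 h2 => (mem_sdiff.1 h2).2
      (h c d hcd (mem_sdiff.1 h1).1 (mem_sdiff.1 h1).2 (mem_sdiff.1 h2).1))
    fun _ _ hq hn S h => main_FI hq hn S h

theorem PolyRemoval.revc {s t : ℕ} {H : Matrix (Fin s) (Fin t) Bool} (h : PolyRemoval H) :
    PolyRemoval (H.submatrix id Fin.rev) := h.transpose.rev.transpose

theorem poly_eqrows {k t : ℕ} (w : Fin (t + 1) → Bool) :
    PolyRemoval (Matrix.of fun (_ : Fin (k + 1)) j => w j) :=
  (poly_row (Matrix.of fun _ j => w j)).blow (fun _ => 0) id monotone_const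
    (fun _ => ⟨0, Subsingleton.elim _ _⟩) monotone_id Function.surjective_id

theorem poly_all_two (H : Matrix (Fin 2) (Fin 2) Bool) : PolyRemoval H := by
  have key : H ∈ [Matrix.of fun (_ : Fin 2) j => H 0 j, (Matrix.of fun (_ : Fin 2) i => H i 0)ᵀ,
      !![true, false; false, true], !![true, false; false, true].submatrix Fin.rev id,
      !![true, true; true, false], !![true, true; true, false].submatrix Fin.rev id,
      !![true, true; true, false].submatrix id Fin.rev,
      (!![true, true; true, false].submatrix Fin.rev id).submatrix id Fin.rev,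
      !![true, true; true, false].map not,
      (!![true, true; true, false].submatrix Fin.rev id).map not,
      (!![true, true; true, false].submatrix id Fin.rev).map not,
      ((!![true, true; true, false].submatrix Fin.rev id).submatrix id Fin.rev).map not] := by
    revert H
    decide
  simp only [List.mem_cons, List.not_mem_nil, or_false] at key
  rcases key with h | h | h | h | h | h | h | h | h | h | h | h <;> rw [h]
  exacts [poly_eqrows _, (poly_eqrows _).transpose, poly_I, poly_I.rev, poly_G, poly_G.rev,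
    poly_G.revc, poly_G.rev.revc, poly_G.compl, poly_G.rev.compl, poly_G.revc.compl,
    poly_G.rev.revc.compl]

theorem not_poly_H5 : ¬ PolyRemoval P037.H5 := by
  rintro ⟨c, C, hc, hC, h⟩
  refine P037.Mini.not_poly ⟨c, C, hc, hC, fun n ε A hn h0 hε hd => ?_⟩
  have e1 : ∀ B : Matrix (Fin n) (Fin n) Bool, copies P037.H5 B = P037.numCopies P037.H5 B := by
    intro B
    unfold copies P037.numCopies
    rw [← Nat.card_coe_set_eq]
    refine Nat.card_congr ⟨fun p => ⟨(OrderEmbedding.ofStrictMono _ p.2.1,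
      OrderEmbedding.ofStrictMono _ p.2.2.1), fun i j => congrFun (congrFun p.2.2.2 i) j⟩,
      fun p => ⟨(p.1.1, p.1.2), p.1.1.strictMono, p.1.2.strictMono, Matrix.ext p.2⟩,
      fun _ => rfl, fun _ => rfl⟩
  rw [← e1]
  refine h n ε A hn h0 hε fun B hB => ?_
  have e2 : P037.numDiff A B = dst A B := by
    unfold P037.numDiff dst hammingDist
    rw [Nat.card_eq_fintype_card, Fintype.card_subtype]
    rfl
  have hn0 : (0 : ℝ) < (n : ℝ) ^ 2 := by positivity
  unfold P037.distFree at hd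
  refine ((le_div_iff₀ hn0).1 hd).trans (Nat.cast_le.2 (Nat.sInf_le ⟨B, e1 B ▸ hB, e2⟩))

theorem cut (k a : ℕ) : ∃ u : Fin (k + 2) → Fin 2, Monotone u ∧ Function.Surjective u ∧
    ∀ i i', u i = u i' → (i.val < a ↔ i'.val < a) := by
  have key : ∀ a', 0 < a' → a' < k + 2 → ∃ u : Fin (k + 2) → Fin 2, Monotone u ∧
      Function.Surjective u ∧ ∀ i i', u i = u i' → (i.val < a' ↔ i'.val < a') := by
    intro a' h0 h1
    refine ⟨fun i => if i.val < a' then 0 else 1, fun i j hij => ?_, fun x => ?_, fun i j h => ?_⟩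
    · have : i.val ≤ j.val := hij
      simp only
      split_ifs <;> omega
    · fin_cases x
      · exact ⟨0, by simp [h0]⟩
      · exact ⟨⟨a', h1⟩, by simp⟩
    · simp only at h
      split_ifs at h <;> omega
  by_cases h : 0 < a ∧ a < k + 2
  · exact key a h.1 h.2
  · obtain ⟨u, h1, h2, -⟩ := key 1 one_pos (by omega)
    exact ⟨u, h1, h2, fun i j _ => by have := i.2; have := j.2; omega⟩

theorem poly_block {k : ℕ} (H : Matrix (Fin k) (Fin k) Bool) (a b : ℕ)
    (h : ∀ i i' j j', (i.val < a ↔ i'.val < a) → (j.val < b ↔ j'.val < b) → H i j = H i' j') :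
    PolyRemoval H := by
  match k, H, h with
  | 0, H, _ =>
    refine ⟨1, 1, one_pos, one_pos, fun n ε A hn h0 h1 hF => ?_⟩
    have : (1 : ℝ) ≤ copies H A := by exact_mod_cast one_le_copies hn h0 hF
    simp only [Real.rpow_one, one_mul, add_zero, pow_zero, mul_one]
    linarith
  | 1, H, _ => exact poly_row H
  | k + 2, H, h =>
    obtain ⟨u, u1, u2, u3⟩ := cut k a
    obtain ⟨v, v1, v2, v3⟩ := cut k b
    obtain ⟨σ, hσ⟩ := u2.hasRightInverse
    obtain ⟨ρ, hρ⟩ := v2.hasRightInverse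
    have e : H = (H.submatrix σ ρ).submatrix u v :=
      Matrix.ext fun i j => h _ _ _ _ (u3 _ _ (hσ _).symm) (v3 _ _ (hρ _).symm)
    rw [e]
    exact (poly_all_two _).blow u v u1 u2 v1 v2

theorem least_hard : ∃ k ∈ ({3, 4, 5} : Set ℕ),
    IsLeast {k | ∃ H : Matrix (Fin k) (Fin k) Bool, ¬ PolyRemoval H} k := by
  have h5 : 5 ∈ {k | ∃ H : Matrix (Fin k) (Fin k) Bool, ¬ PolyRemoval H} := ⟨_, not_poly_H5⟩
  have h := (wellFounded_lt (α := ℕ)).has_min _ ⟨5, h5⟩
  obtain ⟨k, ⟨H, hH⟩, hmin⟩ := h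
  refine ⟨k, ?_, ⟨H, hH⟩, fun m hm => not_lt.1 (hmin m hm)⟩
  have h1 : k ≤ 5 := not_lt.1 (hmin 5 h5)
  have h2 : 3 ≤ k := by
    by_contra h3
    refine hH (poly_block H 1 1 fun i i' j j' g1 g2 => ?_)
    have := i.2; have := i'.2; have := j.2; have := j'.2
    rw [show i = i' from Fin.ext (by omega), show j = j' from Fin.ext (by omega)]
  simp only [Set.mem_insert_iff, Set.mem_singleton_iff]
  omega

theorem not_all : ¬ ∀ (k : ℕ) (H : Matrix (Fin k) (Fin k) Bool), 1 ≤ k →
    ∃ c C : ℝ, 0 < c ∧ 0 < C ∧ ∀ (n : ℕ) (ε : ℝ) (A : Matrix (Fin n) (Fin n) Bool),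
      1 ≤ n → 0 < ε → ε < 1 → Far ε H A → c * ε ^ C * (n : ℝ) ^ (2 * k) ≤ copies H A :=
  fun h => not_poly_H5 (h 5 _ (by norm_num))

end Vale.Agent.N037T
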